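import Vale.Agent.P231.WC.Defs
import Vale.Agent.P231.WG.DE

/-!
# P231, stage 1, block C (push-off): the velocity of a smooth family of curves is smooth
-/

set_option maxSynthPendingDepth 3
set_option linter.unusedSectionVars false
set_option linter.unusedVariables false

open Bundle Manifold Set Filter Module
open scoped ContDiff Manifold Topology

namespace Vale.Agent.P231.WC

noncomputable section

open Vale.Agent.P234 Vale.Agent.P231 Vale.Agent.P231.Fm Vale.Agent.P231.W Vale.Agent.P231.WR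
open Vale.Agent.P231.H775

section Chart

variable {E : Type*} [NormedAddCommGroup E] [NormedSpace ℝ E] [FiniteDimensional ℝ E]
  {M : Type*} [MetricSpace M] [ChartedSpace E M] [IsManifold 𝓘(ℝ, E) ∞ M]
  [RiemannianBundle (fun x : M => TangentSpace 𝓘(ℝ, E) x)]
  [IsContMDiffRiemannianBundle 𝓘(ℝ, E) ∞ E (fun x : M => TangentSpace 𝓘(ℝ, E) x)]
  {V : Type*} [NormedAddCommGroup V] [NormedSpace ℝ V]

/-- the velocity (raw) of a curve -/
def vl (g : ℝ → M) (t : ℝ) : E := mfderiv 𝓘(ℝ, ℝ) 𝓘(ℝ, E) g t (1 : ℝ)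

theorem contDiffAt_chart {f : V → M} {s : V} (x₀ : M)
    (hx : f s ∈ (extChartAt 𝓘(ℝ, E) x₀).source) (hf : ContMDiffAt 𝓘(ℝ, V) 𝓘(ℝ, E) ∞ f s) :
    ContDiffAt ℝ ∞ (fun s => extChartAt 𝓘(ℝ, E) x₀ (f s)) s := by
  have h1 : ContMDiffAt 𝓘(ℝ, V) 𝓘(ℝ, E) ∞ (fun s => extChartAt 𝓘(ℝ, E) x₀ (f s)) s :=
    (contMDiffAt_extChartAt' (exm_mem_source hx)).comp s hf
  exact h1.contDiffAt

/-- the velocity of a curve in a chart -/
theorem vl_eq_vec {g : ℝ → M} {t : ℝ} (x₀ : M) (hx : g t ∈ (extChartAt 𝓘(ℝ, E) x₀).source)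
    (hg : ContMDiffAt 𝓘(ℝ, ℝ) 𝓘(ℝ, E) ∞ g t) :
    (vl g t : E) = vec x₀ (g t) (deriv (fun s => extChartAt 𝓘(ℝ, E) x₀ (g s)) t) := by
  have h1 := (contDiffAt_chart x₀ hx hg).differentiableAt (by simp)
  have h2 := mfderiv_curve_chart x₀ (q := fun s => extChartAt 𝓘(ℝ, E) x₀ (g s)) (t := t)
    ((extChartAt 𝓘(ℝ, E) x₀).map_source hx) h1
  have h3 : (fun s : ℝ => (extChartAt 𝓘(ℝ, E) x₀).symm (extChartAt 𝓘(ℝ, E) x₀ (g s)))
      =ᶠ[𝓝 t] g := by
    filter_upwards [hg.continuousAt.eventually ((isOpen_extChartAt_source x₀).mem_nhds hx)]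
      with s hs
    exact (extChartAt 𝓘(ℝ, E) x₀).left_inv hs
  have h4 : (vl g t : E) = (dch x₀ (extChartAt 𝓘(ℝ, E) x₀ (g t))
      (deriv (fun s => extChartAt 𝓘(ℝ, E) x₀ (g s)) t) : E) := by
    unfold vl
    rw [← rel_congr_raw h3]
    exact h2
  exact h4.trans (WG.vec_congr x₀ ((extChartAt 𝓘(ℝ, E) x₀).left_inv hx) _)

/-- the coordinates of the velocity of a curve -/
theorem crd_vl {g : ℝ → M} {t : ℝ} (x₀ : M) (hx : g t ∈ (extChartAt 𝓘(ℝ, E) x₀).source)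
    (hg : ContMDiffAt 𝓘(ℝ, ℝ) 𝓘(ℝ, E) ∞ g t) :
    crd x₀ (g t) (vl g t : E) = deriv (fun s => extChartAt 𝓘(ℝ, E) x₀ (g s)) t := by
  rw [vl_eq_vec x₀ hx hg]
  exact crd_vec x₀ hx _

/-- translation in time -/
theorem vl_shift {g : ℝ → M} {t : ℝ} (hg : ContMDiffAt 𝓘(ℝ, ℝ) 𝓘(ℝ, E) ∞ g t) :
    (vl (fun s => g (t + s)) 0 : E) = vl g t := by
  have h0 : ContMDiffAt 𝓘(ℝ, ℝ) 𝓘(ℝ, E) ∞ g (t + 0) := by rw [add_zero]; exact hg
  have h1 : ContMDiffAt 𝓘(ℝ, ℝ) 𝓘(ℝ, E) ∞ (fun s => g (t + s)) 0 :=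
    ContMDiffAt.comp (0 : ℝ) (g := g) (f := fun s : ℝ => t + s) h0
      (contDiffAt_const.add contDiffAt_id).contMDiffAt
  have h2 := vl_eq_vec (g t) (mem_extChartAt_source (I := 𝓘(ℝ, E)) (g t)) hg
  have h3 := vl_eq_vec (g := fun s => g (t + s)) (t := 0) (g t)
    (by rw [add_zero]; exact mem_extChartAt_source (I := 𝓘(ℝ, E)) (g t)) h1
  have h4 : deriv (fun s => extChartAt 𝓘(ℝ, E) (g t) (g (t + s))) 0 =
      deriv (fun s => extChartAt 𝓘(ℝ, E) (g t) (g s)) t := by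
    have h5 := deriv_comp_const_add (fun s => extChartAt 𝓘(ℝ, E) (g t) (g s)) t 0
    rw [h5, add_zero]
  rw [h2, h3, h4]
  exact WG.vec_congr _ (by rw [add_zero]) _

/-- the velocity of a smooth family of curves is smooth -/
theorem smV_vel {g : V × ℝ → M} {s₀ : V} {t₀ : ℝ}
    (hg : ∀ᶠ z in 𝓝 (s₀, t₀), ContMDiffAt 𝓘(ℝ, V × ℝ) 𝓘(ℝ, E) ∞ g z) :
    SmV (fun s => g (s, t₀)) (fun s => (vl (fun t => g (s, t)) t₀ : E)) s₀ := by
  set x₀ : M := g (s₀, t₀) with hx₀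
  set q : V × ℝ → E := fun z => extChartAt 𝓘(ℝ, E) x₀ (g z) with hq
  have hsrc : ∀ᶠ z in 𝓝 (s₀, t₀), g z ∈ (extChartAt 𝓘(ℝ, E) x₀).source :=
    hg.self_of_nhds.continuousAt.eventually
      ((isOpen_extChartAt_source x₀).mem_nhds (mem_extChartAt_source (I := 𝓘(ℝ, E)) x₀))
  have h2 : ∀ᶠ z in 𝓝 (s₀, t₀), ContDiffAt ℝ ∞ q z := by
    filter_upwards [hg, hsrc] with z hz1 hz2
    exact contDiffAt_chart x₀ hz2 hz1
  have hin : ContDiffAt ℝ ∞ (fun s : V => ((s, t₀) : V × ℝ)) s₀ :=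
    contDiffAt_id.prodMk contDiffAt_const
  have hin' : Tendsto (fun s : V => ((s, t₀) : V × ℝ)) (𝓝 s₀) (𝓝 (s₀, t₀)) :=
    hin.continuousAt.tendsto
  have hξ : ContDiffAt ℝ ∞ (fun s => fderiv ℝ q (s, t₀) (0, 1)) s₀ :=
    ((h2.self_of_nhds.fderiv_right (m := ∞) (by simp)).comp s₀ hin).clm_apply contDiffAt_const
  have hg0 : ContMDiffAt 𝓘(ℝ, V) 𝓘(ℝ, E) ∞ (fun s => g (s, t₀)) s₀ :=
    hg.self_of_nhds.comp s₀ hin.contMDiffAt
  have h3 := smV_vec x₀ (f := fun s => g (s, t₀)) (s := s₀) hsrc.self_of_nhds hg0 hξ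
  unfold SmV at h3 ⊢
  refine h3.congr_of_eventuallyEq ?_
  filter_upwards [hin'.eventually h2, hin'.eventually hsrc, hin'.eventually hg] with s hs1 hs2 hs3
  refine tb_congr rfl ?_
  have hcur : ContDiffAt ℝ ∞ (fun t : ℝ => ((s, t) : V × ℝ)) t₀ :=
    contDiffAt_const.prodMk contDiffAt_id
  have hder : HasDerivAt (fun t : ℝ => q (s, t)) (fderiv ℝ q (s, t₀) (0, 1)) t₀ := by
    have k2 : HasDerivAt (fun t : ℝ => ((s, t) : V × ℝ)) (0, 1) t₀ :=
      (hasDerivAt_const t₀ s).prodMk (hasDerivAt_id t₀)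
    exact ((hs1.differentiableAt (by simp)).hasFDerivAt (x := (s, t₀))).comp_hasDerivAt
      t₀ k2
  have k1 := vl_eq_vec (g := fun t => g (s, t)) (t := t₀) x₀ hs2
    (ContMDiffAt.comp t₀ hs3 hcur.contMDiffAt)
  rw [hder.deriv] at k1
  exact k1

end Chart

variable {E : Type*} [NormedAddCommGroup E] [NormedSpace ℝ E]
  {M : Type*} [MetricSpace M] [ChartedSpace E M]
  [RiemannianBundle (fun x : M => TangentSpace 𝓘(ℝ, E) x)]
  {e : ∀ x : M, TangentSpace 𝓘(ℝ, E) x → M}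

variable [FiniteDimensional ℝ E] [IsManifold 𝓘(ℝ, E) ∞ M]
  [IsContMDiffRiemannianBundle 𝓘(ℝ, E) ∞ E (fun x : M => TangentSpace 𝓘(ℝ, E) x)]
  [CompactSpace M] [ConnectedSpace M] [IsRiemannianManifold 𝓘(ℝ, E) M]

section General

variable {X : Type*} {DX : Dif X}

/-- plots of the tangent bundle as smooth fields -/
theorem at_tb_iff {E' : Type} [NormedAddCommGroup E'] [NormedSpace ℝ E'] [FiniteDimensional ℝ E']
    {f : E' → M} {u : E' → E} {x : E'} :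
    (dTM E M).At (fun s => tb (f s) (u s)) x ↔ ∀ᶠ s in 𝓝 x, H775.SmV f (fun s => u s) s :=
  Iff.rfl

/-- the velocity of a smooth family of curves, at the time `0` -/
theorem map_vel {f : X × ℝ → M} (hf : (DX.prod (Dif.lin ℝ)).Map (dM E M) f) :
    DX.Map (dTM E M) (fun x => tb (f (x, 0)) (vl (fun t => f (x, t)) 0)) := by
  intro E' _ _ _ u x h
  have h1 : ∀ y, DX.At u y → ∀ᶠ z in 𝓝 ((y, 0) : E' × ℝ),
      ContMDiffAt 𝓘(ℝ, E' × ℝ) 𝓘(ℝ, E) ∞ (fun z : E' × ℝ => f (u z.1, z.2)) z := fun y hy =>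
    hf (Form.cyl_at hy 0)
  have h2 : ∀ᶠ y in 𝓝 x, DX.At u y := DX.open' h
  change ∀ᶠ s in 𝓝 x, H775.SmV (fun s => f (u s, 0)) (fun s => (vl (fun t => f (u s, t)) 0 : E)) s
  filter_upwards [h2] with y hy
  exact smV_vel (g := fun z : E' × ℝ => f (u z.1, z.2)) (h1 y hy)

/-- the squared norm is smooth on the tangent bundle -/
theorem map_nm_sq {f : X → M} {u : X → E}
    (h : DX.Map (dTM E M) (fun x => tb (f x) (u x))) :
    DX.Map (Dif.lin ℝ) (fun x => nm (f x) (u x) ^ 2) := by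
  intro E' _ _ _ c x hc
  have h1 := h hc
  change ∀ᶠ s in 𝓝 x, H775.SmV (fun s => f (c s)) (fun s => (u (c s) : E)) s at h1
  change Sm (fun s => nm (f (c s)) (u (c s)) ^ 2) x
  filter_upwards [h1] with s hs
  exact hs.norm_sq

/-- the inner product is smooth on the tangent bundle -/
theorem map_ip {f : X → M} {u w : X → E}
    (h : DX.Map (dTM E M) (fun x => tb (f x) (u x)))
    (h' : DX.Map (dTM E M) (fun x => tb (f x) (w x))) :
    DX.Map (Dif.lin ℝ) (fun x => ip (f x) (u x) (w x)) := by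
  intro E' _ _ _ c x hc
  have h1 := h hc
  have h2 := h' hc
  change ∀ᶠ s in 𝓝 x, H775.SmV (fun s => f (c s)) (fun s => (u (c s) : E)) s at h1
  change ∀ᶠ s in 𝓝 x, H775.SmV (fun s => f (c s)) (fun s => (w (c s) : E)) s at h2
  change Sm (fun s => ip (f (c s)) (u (c s)) (w (c s))) x
  filter_upwards [h1, h2] with s hs hs2
  exact hs.inner hs2

end General

/-- the push-off is smooth in all variables -/
theorem map_Cm (F : Facts e) {Y : UT E M → E}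
    (hY : (dUT E M).Map (dTM E M) (fun v => tb (foot v) (Y v))) :
    ((dUT E M).prod (Dif.lin ℝ)).Map (dM E M) (fun p => Cm e Y p.2 p.1) := by
  intro E' _ _ _ u x h
  have h1 := hY h.1
  have h2 : Sm (fun s => (u s).2) x := h.2
  change ∀ᶠ s in 𝓝 x, H775.SmV (fun s => foot (u s).1) (fun s => (Y (u s).1 : E)) s at h1
  change ∀ᶠ s in 𝓝 x, ContMDiffAt _ _ _ _ _
  filter_upwards [h1, h2] with s hs1 hs2
  exact (hs1.smul hs2).exp F.isExp

/-- the velocity of the push-off along the orbits of the geodesic flow is smooth -/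
theorem map_vlc (F : Facts e) {Y : UT E M → E}
    (hY : (dUT E M).Map (dTM E M) (fun v => tb (foot v) (Y v))) :
    ((dUT E M).prod (Dif.lin ℝ)).Map (dTM E M)
      (fun p => tb (Cm e Y p.2 p.1) (vlc F (Cm e Y p.2) p.1)) := by
  have h1 : (((dUT E M).prod (Dif.lin ℝ)).prod (Dif.lin ℝ)).Map (dM E M)
      (fun q : (UT E M × ℝ) × ℝ => Cm e Y q.1.2 (phi F (q.1.1, q.2))) := by
    intro E' _ _ _ u x h
    have k1 : (dUT E M).At (fun s : E' => phi F ((u s).1.1, (u s).2)) x :=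
      map_phi F (u := fun s : E' => ((u s).1.1, (u s).2)) ⟨h.1.1, h.2⟩
    exact map_Cm F hY (u := fun s : E' => (phi F ((u s).1.1, (u s).2), (u s).1.2)) ⟨k1, h.1.2⟩
  have h3 : (fun p : UT E M × ℝ => tb (Cm e Y p.2 p.1) (vlc F (Cm e Y p.2) p.1)) =
      fun p : UT E M × ℝ => tb (Cm e Y p.2 (phi F (p.1, 0)))
        (vl (fun t => Cm e Y p.2 (phi F (p.1, t))) 0) := by
    funext p
    exact tb_congr (by rw [phi_zero]) rfl
  rw [h3]
  intro E' _ _ _ u x h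
  exact map_vel h1 h

/-- the squared speed of the push-off is smooth -/
theorem map_sp (F : Facts e) {Y : UT E M → E}
    (hY : (dUT E M).Map (dTM E M) (fun v => tb (foot v) (Y v))) :
    ((dUT E M).prod (Dif.lin ℝ)).Map (Dif.lin ℝ) (fun p => sp F Y p.2 p.1) :=
  map_nm_sq (map_vlc F hY)

/-- the velocity of the curve `t ↦ C (φ_t v)` at time `t` -/
theorem vl_phi (F : Facts e) {C : UT E M → M} {v : UT E M} {t : ℝ}
    (hC : ContMDiffAt 𝓘(ℝ, ℝ) 𝓘(ℝ, E) ∞ (fun s : ℝ => C (phi F (v, s))) t) :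
    (vl (fun s => C (phi F (v, s))) t : E) = vlc F C (phi F (v, t)) := by
  have h1 : (fun s : ℝ => C (phi F (phi F (v, t), s))) =
      fun s => C (phi F (v, t + s)) := by
    funext s
    rw [phi_add]
  have h2 := vl_shift hC
  have h3 : vlc F C (phi F (v, t)) = vl (fun s => C (phi F (v, t + s))) 0 :=
    congrArg (fun g : ℝ → M => (vl g 0 : E)) h1
  rw [h3, h2]

end

end Vale.Agent.P231.WC
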