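import Vale.Agent.P231.WR.Rot

/-!
# P231, stage 1, block C (push-off): definitions and interfaces
-/

set_option maxSynthPendingDepth 3
set_option linter.unusedSectionVars false
set_option linter.unusedVariables false

open Bundle Manifold Set Filter Module
open scoped ContDiff Manifold Topology

namespace Vale.Agent.P231.WC

noncomputable section

open Vale.Agent.P234 Vale.Agent.P231 Vale.Agent.P231.Fm Vale.Agent.P231.W Vale.Agent.P231.WR

variable {E : Type*} [NormedAddCommGroup E] [NormedSpace ℝ E]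
  {M : Type*} [MetricSpace M] [ChartedSpace E M]
  [RiemannianBundle (fun x : M => TangentSpace 𝓘(ℝ, E) x)]
  {e : ∀ x : M, TangentSpace 𝓘(ℝ, E) x → M}

variable [FiniteDimensional ℝ E] [IsManifold 𝓘(ℝ, E) ∞ M]
  [IsContMDiffRiemannianBundle 𝓘(ℝ, E) ∞ E (fun x : M => TangentSpace 𝓘(ℝ, E) x)]
  [CompactSpace M] [ConnectedSpace M] [IsRiemannianManifold 𝓘(ℝ, E) M]

/-- the Jacobi field along the geodesic of `u` vanishing at time `0` with derivative `w u`,
at time `r` -/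
def Jw (e : ∀ x : M, TangentSpace 𝓘(ℝ, E) x → M) (w : UT E M → UT E M) (u : UT E M) (r : ℝ) : E :=
  jf e (foot u) (vec' u) 0 r (vec' (w u))

/-- the field `Y(v) = ∫_0^D J_{φ_{-r} v}(r) dr` -/
def Yf (F : Facts e) (D : ℝ) (w : UT E M → UT E M) (v : UT E M) : E :=
  ∫ r in (0 : ℝ)..D, Jw e w (phi F (v, -r)) r

/-- the map `v ↦ exp (ε Y(v))` -/
def Cm (e : ∀ x : M, TangentSpace 𝓘(ℝ, E) x → M) (Y : UT E M → E) (ε : ℝ) (v : UT E M) : M :=
  e (foot v) (ε • Y v : E)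

/-- the velocity at time `0` of the curve `t ↦ C (φ_t v)` -/
def vlc (F : Facts e) (C : UT E M → M) (v : UT E M) : E :=
  mfderiv 𝓘(ℝ, ℝ) 𝓘(ℝ, E) (fun t : ℝ => C (phi F (v, t))) 0 (1 : ℝ)

/-- the squared speed of the curve `t ↦ exp (ε Y (φ_t v))` at time `0` -/
def sp (F : Facts e) (Y : UT E M → E) (ε : ℝ) (v : UT E M) : ℝ :=
  nm (Cm e Y ε v) (vlc F (Cm e Y ε) v) ^ 2

/-- (twice) the energy of the loop `t ↦ exp (ε Y (φ_t v))`, `0 ≤ t ≤ 2 D` -/
def en (F : Facts e) (D : ℝ) (Y : UT E M → E) (ε : ℝ) (v : UT E M) : ℝ :=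
  ∫ t in (0 : ℝ)..(2 * D), sp F Y ε (phi F (v, t))

end

end Vale.Agent.P231.WC
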