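import Vale.Agent.P231.WC.Loc

/-!
# P231, stage 1, block C (push-off): the local variations of the push-off field
-/

set_option maxSynthPendingDepth 3
set_option linter.unusedSectionVars false
set_option linter.unusedVariables false

open Bundle Manifold Set Filter Module
open scoped ContDiff Manifold Topology

namespace Vale.Agent.P231.WC

noncomputable section

open Vale.Agent.P234 Vale.Agent.P231 Vale.Agent.P231.Fm Vale.Agent.P231.W Vale.Agent.P231.WR
open Vale.Agent.P231.H775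

variable {E : Type*} [NormedAddCommGroup E] [NormedSpace ℝ E]
  {M : Type*} [MetricSpace M] [ChartedSpace E M]
  [RiemannianBundle (fun x : M => TangentSpace 𝓘(ℝ, E) x)]
  {e : ∀ x : M, TangentSpace 𝓘(ℝ, E) x → M}

variable [FiniteDimensional ℝ E] [IsManifold 𝓘(ℝ, E) ∞ M]
  [IsContMDiffRiemannianBundle 𝓘(ℝ, E) ∞ E (fun x : M => TangentSpace 𝓘(ℝ, E) x)]
  [CompactSpace M] [ConnectedSpace M] [IsRiemannianManifold 𝓘(ℝ, E) M]

variable {D : ℝ} {w : UT E M → UT E M}

/-- one-jets and two-jets along a line in the first variable -/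
theorem jet1 {F' : Type*} [NormedAddCommGroup F'] [NormedSpace ℝ F'] {c : ℝ × ℝ → F'} {κ : ℝ → F'}
    {θ t : ℝ} (hc : Sm c (θ, t)) (h : ∀ᶠ s in 𝓝 θ, c (s, t) = κ s) :
    d1 c (θ, t) = deriv κ θ ∧ d1 (d1 c) (θ, t) = deriv (deriv κ) θ := by
  have hin : Tendsto (fun s : ℝ => ((s, t) : ℝ × ℝ)) (𝓝 θ) (𝓝 (θ, t)) :=
    (continuous_id.prodMk continuous_const).tendsto θ
  have key : ∀ {f : ℝ × ℝ → F'} {y : ℝ → F'} {θ : ℝ}, DifferentiableAt ℝ f (θ, t) →
      (∀ᶠ s in 𝓝 θ, f (s, t) = y s) → d1 f (θ, t) = deriv y θ := by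
    intro f y θ hf hy
    have h1 := hasDerivAt_d1 hf
    have h2 : y =ᶠ[𝓝 θ] fun s => f (s, t) := by
      filter_upwards [hy] with s hs using hs.symm
    exact (h1.congr_of_eventuallyEq h2).deriv.symm
  refine ⟨key hc.differentiableAt h, key (sm_d1 hc).differentiableAt ?_⟩
  filter_upwards [hin.eventually hc.eventually, eventually_eventually_nhds.2 h] with s hs1 hs2
  exact key hs1.differentiableAt hs2

theorem isOpen_src (F : Facts e) (x₀ : M) (v : UT E M) :
    IsOpen {t : ℝ | gm e (v, t) ∈ (extChartAt 𝓘(ℝ, E) x₀).source} := by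
  rw [isOpen_iff_mem_nhds]
  intro t ht
  exact src_gm F x₀ ht

/-- the push-off field in the chart -/
theorem yf_Yf (F : Facts e) (h : IsSec e D w) (x₀ : M) (v : UT E M) {t : ℝ}
    (ht : gm e (v, t) ∈ (extChartAt 𝓘(ℝ, E) x₀).source) :
    yf e x₀ v (fun t => Yf F D w (phi F (v, t))) t =
      ∫ r in (0 : ℝ)..D, jj F w x₀ v (t - r, t) := by
  set x := gm e (v, t) with hx
  have hjj : ∀ r, jj F w x₀ v (t - r, t) = (crd x₀ x (Jw e w (phi F (phi F (v, t), -r)) r : E) : E) := by
    intro r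
    unfold jj
    refine crd_congr x₀ rfl ?_
    rw [phi_add F, sub_sub_cancel]
    rfl
  have hcont : Continuous fun r : ℝ => jj F w x₀ v (t - r, t) := by
    rw [continuous_iff_continuousAt]
    intro r
    exact (sm_jj F h x₀ v (t - r) ht).continuousAt.comp
      (f := fun r : ℝ => ((t - r, t) : ℝ × ℝ))
      ((continuous_const.sub continuous_id).prodMk continuous_const).continuousAt
  let Lv : E →L[ℝ] E := vec x₀ x
  let Lc : E →L[ℝ] E := crd x₀ x
  have hJ : ∀ r, Jw e w (phi F (phi F (v, t), -r)) r = Lv (jj F w x₀ v (t - r, t)) := by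
    intro r
    rw [hjj]
    exact (vec_crd x₀ ht _).symm
  have hint : IntervalIntegrable (fun r => Jw e w (phi F (phi F (v, t), -r)) r)
      MeasureTheory.volume 0 D := by
    have k : (fun r => Jw e w (phi F (phi F (v, t), -r)) r) =
        fun r => Lv (jj F w x₀ v (t - r, t)) := funext hJ
    rw [k]
    exact (Lv.continuous.comp hcont).intervalIntegrable 0 D
  have h1 := Lc.intervalIntegral_comp_comm hint
  have h2 : yf e x₀ v (fun t => Yf F D w (phi F (v, t))) t =
      Lc (∫ r in (0 : ℝ)..D, Jw e w (phi F (phi F (v, t), -r)) r) := rfl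
  rw [h2, ← h1]
  refine intervalIntegral.integral_congr fun r _ => ?_
  exact (hjj r).symm

/-- the linearized geodesic operator of the push-off field is `2 w` -/
theorem delta_Yf (F : Facts e) (hD : 0 < D) (hB : InjGE e D) (hdiam : ∀ p q : M, dist p q ≤ D)
    (h : IsSec e D w) (hph : ∀ v, w (phi F (v, D)) = ng (phi F (w v, D))) (x₀ : M) (v : UT E M)
    (hx : foot v ∈ (extChartAt 𝓘(ℝ, E) x₀).source) (b : E) :
    fderiv ℝ (Qf (cm x₀))
      (kap e x₀ v 0, deriv (kap e x₀ v) 0, deriv (deriv (kap e x₀ v)) 0, b)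
      (yf e x₀ v (fun t => Yf F D w (phi F (v, t))) 0,
        deriv (yf e x₀ v (fun t => Yf F D w (phi F (v, t)))) 0,
        deriv (deriv (yf e x₀ v (fun t => Yf F D w (phi F (v, t))))) 0, 0) =
      cm x₀ (kap e x₀ v 0) (crd x₀ (foot v) ((2 : ℝ) • vec' (w v) : E) : E) b := by
  have hx0 : gm e (v, 0) ∈ (extChartAt 𝓘(ℝ, E) x₀).source := by rw [gm_zero F]; exact hx
  have htar : kap e x₀ v 0 ∈ (extChartAt 𝓘(ℝ, E) x₀).target :=
    (extChartAt 𝓘(ℝ, E) x₀).map_source hx0
  have hzero : ∀ p : M, (crd x₀ p (0 : E) : E) = 0 := fun p => map_zero (crd x₀ p)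
  have h1 := superpose (A := cm x₀) (b := b) (D := D) (sm_cm x₀ htar) (isOpen_src F x₀ v) hx0
    (j := jj F w x₀ v) (fun s t ht => sm_jj F h x₀ v s ht)
    (fun t ht => by
      unfold jj
      have k : Jw e w (phi F (v, (t, t).1)) ((t, t).2 - (t, t).1) = 0 := by
        change Jw e w (phi F (v, t)) (t - t) = 0
        rw [sub_self, Jw_zero]
      rw [k]
      exact hzero _)
    (fun t ht => by
      unfold jj
      have k : Jw e w (phi F (v, (t - D, t).1)) ((t - D, t).2 - (t - D, t).1) = 0 := by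
        change Jw e w (phi F (v, t - D)) (t - (t - D)) = 0
        rw [sub_sub_cancel, Jw_D F hD hB hdiam h]
      rw [k]
      exact hzero _)
    (fun s => lin_jj F hD hB hdiam h x₀ v hx s b)
    (y := yf e x₀ v (fun t => Yf F D w (phi F (v, t)))) (fun t ht => yf_Yf F h x₀ v ht)
  rw [h1, dt_jj_zero F hD hB hdiam h x₀ v hx, dt_jj_D F hD hB hdiam h x₀ v hx]
  congr 2
  have h2 := hph (phi F (v, -D))
  have h3 : phi F (phi F (v, -D), D) = v := by rw [phi_add, neg_add_cancel, phi_zero]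
  rw [h3] at h2
  have h4 : vec' (w v) = -vec' (phi F (w (phi F (v, -D)), D)) := by rw [h2, vec'_ng]
  have h5 : vec' (phi F (w (phi F (v, -D)), D)) = -vec' (w v) := by rw [h4, neg_neg]
  rw [h5]
  have h6 : (crd x₀ (foot v) (-vec' (w v) : E) : E) = -(crd x₀ (foot v) (vec' (w v) : E) : E) :=
    map_neg (crd x₀ (foot v)) _
  have h7 : (crd x₀ (foot v) ((2 : ℝ) • vec' (w v) : E) : E) =
      (2 : ℝ) • (crd x₀ (foot v) (vec' (w v) : E) : E) := map_smul (crd x₀ (foot v)) _ _
  rw [h6, h7, sub_neg_eq_add, two_smul]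

section Local

variable {Y : UT E M → E}

theorem field_of_map (F : Facts e)
    (hY : (dUT E M).Map (dTM E M) (fun v => tb (foot v) (Y v))) (v : UT E M) (t : ℝ) :
    ∀ᶠ t in 𝓝 t, H775.SmV (fun t => gm e (v, t)) (fun t => (Y (phi F (v, t)) : E)) t := by
  have k0 : Sm (fun t : ℝ => t) t := Sm.of_contDiff contDiff_id _
  have k1 : (dUT E M).At (fun t : ℝ => phi F (v, t)) t :=
    map_phi F (u := fun t : ℝ => (v, t)) ⟨H583.at_const v _, k0⟩
  exact hY k1

theorem at_Cm_line (F : Facts e)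
    (hY : (dUT E M).Map (dTM E M) (fun v => tb (foot v) (Y v))) (v : UT E M) (ε t : ℝ) :
    ContMDiffAt 𝓘(ℝ, ℝ) 𝓘(ℝ, E) ∞ (fun t : ℝ => Cm e Y ε (phi F (v, t))) t := by
  have h1 : S2 (E := E) (po2 e v (fun t => Y (phi F (v, t)))) (ε, t) :=
    s2_po2 F v ε (field_of_map F hY v t)
  exact h1.line2

/-- the squared speed of the push-off -/
theorem sq2_po2 (F : Facts e)
    (hY : (dUT E M).Map (dTM E M) (fun v => tb (foot v) (Y v))) (v : UT E M) (z : ℝ × ℝ) :
    sq2 (E := E) (po2 e v (fun t => Y (phi F (v, t)))) z = sp F Y z.1 (phi F (v, z.2)) := by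
  have h1 := vl_phi F (C := Cm e Y z.1) (at_Cm_line F hY v z.1 z.2)
  unfold sp
  rw [← h1]
  rfl

theorem mx2_po2 (F : Facts e)
    (hY : (dUT E M).Map (dTM E M) (fun v => tb (foot v) (Y v))) (v : UT E M) (z : ℝ × ℝ) :
    mx2 (E := E) (po2 e v (fun t => Y (phi F (v, t)))) z =
      ip (Cm e Y z.1 (phi F (v, z.2))) (vlc F (Cm e Y z.1) (phi F (v, z.2)))
        (vl (fun ε => Cm e Y ε (phi F (v, z.2))) z.1) := by
  have h1 := vl_phi F (C := Cm e Y z.1) (at_Cm_line F hY v z.1 z.2)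
  rw [← h1]
  rfl

theorem sm_sq2 (F : Facts e)
    (hY : (dUT E M).Map (dTM E M) (fun v => tb (foot v) (Y v))) (v : UT E M) (z : ℝ × ℝ) :
    Sm (sq2 (E := E) (po2 e v (fun t => Y (phi F (v, t))))) z := by
  have h1 : sq2 (E := E) (po2 e v (fun t => Y (phi F (v, t)))) =
      fun z : ℝ × ℝ => sp F Y z.1 (phi F (v, z.2)) := funext (sq2_po2 F hY v)
  rw [h1]
  have k0 : Sm (fun z : ℝ × ℝ => z.2) z := Sm.of_contDiff contDiff_snd _
  have k2 : Sm (fun z : ℝ × ℝ => z.1) z := Sm.of_contDiff contDiff_fst _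
  have k1 : (dUT E M).At (fun z : ℝ × ℝ => phi F (v, z.2)) z :=
    map_phi F (u := fun z : ℝ × ℝ => (v, z.2)) ⟨H583.at_const v _, k0⟩
  exact map_sp F hY (u := fun z : ℝ × ℝ => (phi F (v, z.2), z.1)) ⟨k1, k2⟩

theorem sm_mx2 (F : Facts e)
    (hY : (dUT E M).Map (dTM E M) (fun v => tb (foot v) (Y v))) (v : UT E M) :
    Sm (mx2 (E := E) (po2 e v (fun t => Y (phi F (v, t))))) (0, 0) := by
  set g := po2 e v (fun t => Y (phi F (v, t))) with hg
  have hS : S2 (E := E) g (0, 0) := s2_po2 F v 0 (field_of_map F hY v 0)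
  have hsrc : g (0, 0) ∈ (extChartAt 𝓘(ℝ, E) (g (0, 0))).source := mem_extChartAt_source _
  have hCs : Sm (fun z => extChartAt 𝓘(ℝ, E) (g (0, 0)) (g z)) (0, 0) := hS.sm _ hsrc
  have htar := (extChartAt 𝓘(ℝ, E) (g (0, 0))).map_source hsrc
  have ham : Am (cm (g (0, 0))) (fun z => extChartAt 𝓘(ℝ, E) (g (0, 0)) (g z)) =ᶠ[𝓝 (0, 0)]
      mx2 (E := E) g := by
    filter_upwards [hS.eventually, hS.src _ hsrc] with z e1 e2 using e1.am _ e2
  exact (sm_Am (c := fun z => extChartAt 𝓘(ℝ, E) (g (0, 0)) (g z)) (sm_cm _ htar) hCs).congr ham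

/-- the first variation of the speed vanishes for orthogonal fields -/
theorem local_first' (F : Facts e) (hD : 0 < D) (hB : InjGE e D)
    (hY : (dUT E M).Map (dTM E M) (fun v => tb (foot v) (Y v)))
    (hperp : ∀ v, ip (foot v) (Y v) (vec' v) = 0) (v : UT E M) :
    deriv (fun ε => sp F Y ε v) 0 = 0 := by
  have h1 := first_field F hD hB v (field_of_map F hY v 0)
  have h2 : d2 (mx2 (E := E) (po2 e v (fun t => Y (phi F (v, t))))) (0, 0) = 0 := by
    have k1 := hasDerivAt_d2 (a := 0) (b := 0) (sm_mx2 F hY v).differentiableAt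
    have k2 : (fun _ : ℝ => (0 : ℝ)) =ᶠ[𝓝 0]
        fun t => mx2 (E := E) (po2 e v (fun t => Y (phi F (v, t)))) (0, t) := by
      refine Eventually.of_forall fun t => ?_
      have e1 : (fun s => po2 e v (fun t => Y (phi F (v, t))) (0, s)) = fun s => gm e (v, s) :=
        funext fun s => po2_zero F v _ s
      have e2 : (vl (fun s => gm e (v, s)) t : E) = vec' (phi F (v, t)) :=
        mfderiv_gam F.isExp (foot v) (vec' v) t
      have e3 := vl_po2 F v (fun t => Y (phi F (v, t))) t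
      unfold mx2
      change 0 = ip (po2 e v (fun t => Y (phi F (v, t))) (0, t))
        (vl (fun s => po2 e v (fun t => Y (phi F (v, t))) (0, s)) t)
        (vl (fun s => po2 e v (fun t => Y (phi F (v, t))) (s, t)) 0)
      rw [e1, e2, e3, po2_zero F, ip_comm']
      exact (hperp (phi F (v, t))).symm
    exact (k1.congr_of_eventuallyEq k2).unique (hasDerivAt_const _ _)
  have h3 := (jet1 (c := sq2 (E := E) (po2 e v (fun t => Y (phi F (v, t)))))
    (κ := fun ε => sp F Y ε v) (θ := 0) (t := 0) (sm_sq2 F hY v _)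
    (Eventually.of_forall fun ε => by
      rw [sq2_po2 F hY v]
      change sp F Y ε (phi F (v, 0)) = _
      rw [phi_zero])).1
  rw [h2, h3] at h1
  linarith

/-- the second variation of the speed -/
theorem local_second' (F : Facts e) (hD : 0 < D) (hB : InjGE e D)
    (hY : (dUT E M).Map (dTM E M) (fun v => tb (foot v) (Y v))) (v : UT E M) {δ : E}
    (hδ : ∀ b, fderiv ℝ (Qf (cm (foot v)))
      (kap e (foot v) v 0, deriv (kap e (foot v) v) 0, deriv (deriv (kap e (foot v) v)) 0, b)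
      (yf e (foot v) v (fun t => Y (phi F (v, t))) 0,
        deriv (yf e (foot v) v (fun t => Y (phi F (v, t)))) 0,
        deriv (deriv (yf e (foot v) v (fun t => Y (phi F (v, t))))) 0, 0) =
        cm (foot v) (kap e (foot v) v 0) (crd (foot v) (foot v) δ : E) b) :
    (1 / 2 : ℝ) * deriv (deriv (fun ε => sp F Y ε v)) 0 =
      deriv (fun t : ℝ => deriv (fun ε : ℝ => ip (Cm e Y ε (phi F (v, t)))
        (vlc F (Cm e Y ε) (phi F (v, t))) (vl (fun ε' => Cm e Y ε' (phi F (v, t))) ε)) 0) 0 -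
      ip (foot v) δ (Y v) := by
  have h1 := second_field F hD hB (foot v) v (mem_extChartAt_source _) (field_of_map F hY v 0) hδ
  have h3 := (jet1 (c := sq2 (E := E) (po2 e v (fun t => Y (phi F (v, t)))))
    (κ := fun ε => sp F Y ε v) (θ := 0) (t := 0) (sm_sq2 F hY v _)
    (Eventually.of_forall fun ε => by
      rw [sq2_po2 F hY v]
      change sp F Y ε (phi F (v, 0)) = _
      rw [phi_zero])).2
  have hin : Tendsto (fun s : ℝ => ((0, s) : ℝ × ℝ)) (𝓝 0) (𝓝 (0, 0)) :=
    (continuous_const.prodMk continuous_id).tendsto 0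
  have h4 := d2_line (f := d1 (mx2 (E := E) (po2 e v (fun t => Y (phi F (v, t))))))
    (a := 0) (t := 0) (y := fun t : ℝ => deriv (fun ε : ℝ => ip (Cm e Y ε (phi F (v, t)))
        (vlc F (Cm e Y ε) (phi F (v, t))) (vl (fun ε' => Cm e Y ε' (phi F (v, t))) ε)) 0)
    (sm_d1 (sm_mx2 F hY v)).differentiableAt (by
      filter_upwards [hin.eventually (sm_mx2 F hY v).eventually] with t ht
      refine (jet1 (θ := 0) (t := t) ht (Eventually.of_forall fun ε => ?_)).1
      rw [mx2_po2 F hY v])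
  rw [h3, h4, phi_zero] at h1
  exact h1

end Local

/-- THE LOCAL FIRST VARIATION of the push-off -/
theorem local_first (F : Facts e) (hD : 0 < D) (hB : InjGE e D) (h : IsSec e D w) (v : UT E M) :
    deriv (fun ε => sp F (Yf F D w) ε v) 0 = 0 :=
  local_first' F hD hB (H583.map_Yf F h) (fun v => H583.Y_perp F h v) v

/-- THE LOCAL SECOND VARIATION of the push-off -/
theorem local_second (F : Facts e) (hD : 0 < D) (hB : InjGE e D)
    (hdiam : ∀ p q : M, dist p q ≤ D) (h : IsSec e D w)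
    (hph : ∀ v, w (phi F (v, D)) = ng (phi F (w v, D))) (v : UT E M) :
    (1 / 2 : ℝ) * deriv (deriv (fun ε => sp F (Yf F D w) ε v)) 0 =
      deriv (fun t : ℝ => deriv (fun ε : ℝ => ip (Cm e (Yf F D w) ε (phi F (v, t)))
        (vlc F (Cm e (Yf F D w) ε) (phi F (v, t)))
        (vl (fun ε' => Cm e (Yf F D w) ε' (phi F (v, t))) ε)) 0) 0 -
      2 * ip (foot v) (Yf F D w v) (vec' (w v)) := by
  have h1 := local_second' F hD hB (H583.map_Yf F h) v (δ := (2 : ℝ) • vec' (w v))
    (delta_Yf F hD hB hdiam h hph (foot v) v (mem_extChartAt_source _))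
  rw [ip_smul_left', ip_comm' (foot v) (vec' (w v))] at h1
  exact h1

end

end Vale.Agent.P231.WC
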