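import Vale.Agent.P231.WC.Calc

/-!
# P231, stage 1, block C (push-off): superposition of variations through geodesics
-/

set_option maxSynthPendingDepth 3
set_option linter.unusedSectionVars false
set_option linter.unusedVariables false

open Set Filter Module Topology MeasureTheory
open scoped ContDiff

namespace Vale.Agent.P231.WC

noncomputable section

open Vale.Agent.P231.Fm

variable {E F G : Type*} [NormedAddCommGroup E] [NormedSpace ℝ E] [NormedAddCommGroup F]
  [NormedSpace ℝ F] [NormedAddCommGroup G] [NormedSpace ℝ G]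

/-- derivative of a parametric integral -/
theorem hasDerivAt_integral {g : ℝ × ℝ → F} {U : Set ℝ} (hU : IsOpen U)
    (hg : ∀ r, ∀ t ∈ U, Sm g (r, t)) (a b : ℝ) {t : ℝ} (ht : t ∈ U) :
    HasDerivAt (fun t => ∫ r in a..b, g (r, t)) (∫ r in a..b, d2 g (r, t)) t := by
  obtain ⟨ρ, hρ, hρU⟩ := Metric.nhds_basis_closedBall.mem_iff.1 (hU.mem_nhds ht)
  have hcomp : IsCompact (uIcc a b ×ˢ Metric.closedBall t ρ) :=
    isCompact_uIcc.prod (isCompact_closedBall t ρ)
  have hcont : ContinuousOn (d2 g) (uIcc a b ×ˢ Metric.closedBall t ρ) := fun z hz =>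
    (sm_d2 (hg z.1 z.2 (hρU hz.2))).continuousAt.continuousWithinAt
  obtain ⟨C, hC⟩ := hcomp.exists_bound_of_continuousOn hcont
  have hsec : ∀ t ∈ U, Continuous fun r => g (r, t) := fun t ht => by
    rw [continuous_iff_continuousAt]
    intro r
    exact (hg r t ht).continuousAt.comp (f := fun r => (r, t))
      (continuous_id.prodMk continuous_const).continuousAt
  have hsec' : ∀ t ∈ U, Continuous fun r => d2 g (r, t) := fun t ht => by
    rw [continuous_iff_continuousAt]
    intro r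
    exact (sm_d2 (hg r t ht)).continuousAt.comp (f := fun r => (r, t))
      (continuous_id.prodMk continuous_const).continuousAt
  refine (intervalIntegral.hasDerivAt_integral_of_dominated_loc_of_deriv_le
    (s := Metric.closedBall t ρ) (F := fun t r => g (r, t)) (F' := fun t r => d2 g (r, t))
    (bound := fun _ => C) (Metric.closedBall_mem_nhds t hρ) ?_ ?_ ?_ ?_ ?_ ?_).2
  · filter_upwards [hU.mem_nhds ht] with t' ht'
    exact (hsec t' ht').aestronglyMeasurable
  · exact (hsec t ht).intervalIntegrable a b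
  · exact (hsec' t ht).aestronglyMeasurable
  · refine Eventually.of_forall fun r hr t' ht' => ?_
    exact hC (r, t') ⟨uIoc_subset_uIcc hr, ht'⟩
  · exact intervalIntegrable_const
  · refine Eventually.of_forall fun r hr t' ht' => ?_
    exact hasDerivAt_d2 (hg r t' (hρU ht')).differentiableAt

variable [CompleteSpace E]

/-- derivative of an integral over a sliding window -/
theorem hasDerivAt_slide {j : ℝ × ℝ → E} {U : Set ℝ} (hU : IsOpen U)
    (hj : ∀ s, ∀ t ∈ U, Sm j (s, t)) (D : ℝ) {t : ℝ} (ht : t ∈ U) :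
    HasDerivAt (fun t => ∫ r in (0 : ℝ)..D, j (t - r, t))
      (j (t, t) - j (t - D, t) + ∫ r in (0 : ℝ)..D, d2 j (t - r, t)) t := by
  set g : ℝ × ℝ → E := fun z => j (z.2 - z.1, z.2) with hgdef
  have hlin : ∀ z : ℝ × ℝ, Sm (fun z : ℝ × ℝ => ((z.2 - z.1, z.2) : ℝ × ℝ)) z := fun z =>
    Sm.of_contDiff ((contDiff_snd.sub contDiff_fst).prodMk contDiff_snd) z
  have hg : ∀ r, ∀ t ∈ U, Sm g (r, t) := fun r t ht =>
    Sm.comp (f := j) (g := fun z : ℝ × ℝ => ((z.2 - z.1, z.2) : ℝ × ℝ)) (hj (t - r) t ht)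
      (hlin (r, t))
  have h1 := hasDerivAt_integral hU hg 0 D ht
  have hd : ∀ r, d2 g (r, t) = d1 j (t - r, t) + d2 j (t - r, t) := by
    intro r
    have k1 : HasDerivAt (fun t' => g (r, t')) (d2 g (r, t)) t :=
      hasDerivAt_d2 (hg r t ht).differentiableAt
    have k2 : HasDerivAt (fun t' : ℝ => ((t' - r, t') : ℝ × ℝ)) (1, 1) t :=
      ((hasDerivAt_id t).sub_const r).prodMk (hasDerivAt_id t)
    have k3 : HasDerivAt (fun t' => g (r, t')) (fderiv ℝ j (t - r, t) (1, 1)) t :=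
      HasFDerivAt.comp_hasDerivAt (f := fun t' : ℝ => ((t' - r, t') : ℝ × ℝ)) t
        ((hj (t - r) t ht).differentiableAt.hasFDerivAt) k2
    rw [k1.unique k3]
    have k4 : ((1, 1) : ℝ × ℝ) = (1, 0) + (0, 1) := by simp
    rw [k4, map_add]
    rfl
  have hc1 : Continuous fun r => d1 j (t - r, t) := by
    rw [continuous_iff_continuousAt]
    intro r
    exact (sm_d1 (hj (t - r) t ht)).continuousAt.comp (f := fun r : ℝ => ((t - r, t) : ℝ × ℝ))
      ((continuous_const.sub continuous_id).prodMk continuous_const).continuousAt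
  have hc2 : Continuous fun r => d2 j (t - r, t) := by
    rw [continuous_iff_continuousAt]
    intro r
    exact (sm_d2 (hj (t - r) t ht)).continuousAt.comp (f := fun r : ℝ => ((t - r, t) : ℝ × ℝ))
      ((continuous_const.sub continuous_id).prodMk continuous_const).continuousAt
  have hF : ∫ r in (0 : ℝ)..D, d1 j (t - r, t) = j (t, t) - j (t - D, t) := by
    have k : ∀ r ∈ uIcc 0 D, HasDerivAt (fun r => -j (t - r, t)) (d1 j (t - r, t)) r := by
      intro r _
      have k1 : HasDerivAt (fun r' : ℝ => t - r') (-1) r := by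
        simpa using (hasDerivAt_id r).const_sub t
      have k2 : HasDerivAt (fun s => j (s, t)) (d1 j (t - r, t)) (t - r) :=
        hasDerivAt_d1 (hj (t - r) t ht).differentiableAt
      have k3 : HasDerivAt (fun r => -j (t - r, t)) (-((-1 : ℝ) • d1 j (t - r, t))) r :=
        (k2.scomp r k1).neg
      simpa using k3
    have k' := intervalIntegral.integral_eq_sub_of_hasDerivAt k (hc1.intervalIntegrable 0 D)
    rw [k', sub_zero]
    abel
  have h2 : ∫ r in (0 : ℝ)..D, d2 g (r, t) =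
      j (t, t) - j (t - D, t) + ∫ r in (0 : ℝ)..D, d2 j (t - r, t) := by
    rw [intervalIntegral.integral_congr (g := fun r => d1 j (t - r, t) + d2 j (t - r, t))
      fun r _ => hd r, intervalIntegral.integral_add (hc1.intervalIntegrable 0 D)
      (hc2.intervalIntegrable 0 D), hF]
  rw [h2] at h1
  exact h1

/-- superposition -/
theorem superpose {A : E → E →L[ℝ] E →L[ℝ] ℝ} {x p q b : E} (hA : Sm A x)
    {j : ℝ × ℝ → E} {U : Set ℝ} (hU : IsOpen U) (h0U : (0 : ℝ) ∈ U)
    (hj : ∀ s, ∀ t ∈ U, Sm j (s, t)) {D : ℝ} (h0 : ∀ t ∈ U, j (t, t) = 0)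
    (hD : ∀ t ∈ U, j (t - D, t) = 0)
    (hlin : ∀ s, fderiv ℝ (Qf A) (x, p, q, b) (j (s, 0), d2 j (s, 0), d2 (d2 j) (s, 0), 0) = 0)
    {y : ℝ → E} (hy : ∀ t ∈ U, y t = ∫ r in (0 : ℝ)..D, j (t - r, t)) :
    fderiv ℝ (Qf A) (x, p, q, b) (y 0, deriv y 0, deriv (deriv y) 0, 0) =
      A x (d2 j (0, 0) - d2 j (-D, 0)) b := by
  have h1 : ∀ t ∈ U, deriv y t = ∫ r in (0 : ℝ)..D, d2 j (t - r, t) := by
    intro t ht
    have k1 := hasDerivAt_slide hU hj D ht
    rw [h0 t ht, hD t ht, sub_zero, zero_add] at k1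
    have k2 : y =ᶠ[𝓝 t] fun t => ∫ r in (0 : ℝ)..D, j (t - r, t) := by
      filter_upwards [hU.mem_nhds ht] with t' ht' using hy t' ht'
    exact (k1.congr_of_eventuallyEq k2).deriv
  have h2 : deriv (deriv y) 0 = d2 j (0, 0) - d2 j (-D, 0) +
      ∫ r in (0 : ℝ)..D, d2 (d2 j) (-r, 0) := by
    have k1 := hasDerivAt_slide hU (j := d2 j) (fun s t ht => sm_d2 (hj s t ht)) D h0U
    have k2 : deriv y =ᶠ[𝓝 0] fun t => ∫ r in (0 : ℝ)..D, d2 j (t - r, t) := by
      filter_upwards [hU.mem_nhds h0U] with t' ht' using h1 t' ht'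
    have k3 := (k1.congr_of_eventuallyEq k2).deriv
    simpa using k3
  have h3 : y 0 = ∫ r in (0 : ℝ)..D, j (-r, 0) := by
    have k := hy 0 h0U
    simpa using k
  have h4 : deriv y 0 = ∫ r in (0 : ℝ)..D, d2 j (-r, 0) := by
    have k := h1 0 h0U
    simpa using k
  set Λ := fderiv ℝ (Qf A) (x, p, q, b) with hΛ
  have hcont : ∀ {f : ℝ × ℝ → E}, (∀ s, Sm f (s, 0)) → Continuous fun r : ℝ => f (-r, 0) := by
    intro f hf
    rw [continuous_iff_continuousAt]
    intro r
    exact (hf (-r)).continuousAt.comp (f := fun r : ℝ => ((-r, 0) : ℝ × ℝ))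
      (continuous_neg.prodMk continuous_const).continuousAt
  have c0 := hcont (f := j) fun s => hj s 0 h0U
  have c1 := hcont (f := d2 j) fun s => sm_d2 (hj s 0 h0U)
  have c2 := hcont (f := d2 (d2 j)) fun s => sm_d2 (sm_d2 (hj s 0 h0U))
  let L1 : E →L[ℝ] ℝ := Λ.comp (ContinuousLinearMap.inl ℝ E (E × E × E))
  let L2 : E →L[ℝ] ℝ := Λ.comp ((ContinuousLinearMap.inr ℝ E (E × E × E)).comp
    (ContinuousLinearMap.inl ℝ E (E × E)))
  let L3 : E →L[ℝ] ℝ := Λ.comp ((ContinuousLinearMap.inr ℝ E (E × E × E)).comp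
    ((ContinuousLinearMap.inr ℝ E (E × E)).comp (ContinuousLinearMap.inl ℝ E E)))
  have hsplit : ∀ a b c : E, Λ (a, b, c, 0) = L1 a + L2 b + L3 c := by
    intro a b c
    have k : ((a, b, c, 0) : E × E × E × E) = (a, 0, 0, 0) + (0, b, 0, 0) + (0, 0, c, 0) := by
      simp
    rw [k, map_add, map_add]
    rfl
  have i1 : IntervalIntegrable (fun r : ℝ => L1 (j (-r, 0))) volume 0 D :=
    (L1.continuous.comp c0).intervalIntegrable 0 D
  have i2 : IntervalIntegrable (fun r : ℝ => L2 (d2 j (-r, 0))) volume 0 D :=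
    (L2.continuous.comp c1).intervalIntegrable 0 D
  have i3 : IntervalIntegrable (fun r : ℝ => L3 (d2 (d2 j) (-r, 0))) volume 0 D :=
    (L3.continuous.comp c2).intervalIntegrable 0 D
  have hint : L1 (y 0) + L2 (deriv y 0) + L3 (∫ r in (0 : ℝ)..D, d2 (d2 j) (-r, 0)) = 0 := by
    rw [h3, h4, ← L1.intervalIntegral_comp_comm (c0.intervalIntegrable 0 D),
      ← L2.intervalIntegral_comp_comm (c1.intervalIntegrable 0 D),
      ← L3.intervalIntegral_comp_comm (c2.intervalIntegrable 0 D),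
      ← intervalIntegral.integral_add i1 i2, ← intervalIntegral.integral_add (i1.add i2) i3]
    have k : ∀ r : ℝ, L1 (j (-r, 0)) + L2 (d2 j (-r, 0)) + L3 (d2 (d2 j) (-r, 0)) = 0 := by
      intro r
      rw [← hsplit]
      exact hlin (-r)
    simp only [k]
    simp
  have hδ : L3 (d2 j (0, 0) - d2 j (-D, 0)) = A x (d2 j (0, 0) - d2 j (-D, 0)) b :=
    fderiv_Qf_q hA _
  rw [hsplit, h2, map_add, hδ]
  linear_combination hint

/-- restriction of a partial derivative to a line -/
theorem d2_line {f : ℝ × ℝ → F} {y : ℝ → F} {a : ℝ} {t : ℝ} (hf : DifferentiableAt ℝ f (a, t))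
    (hy : ∀ᶠ s in 𝓝 t, f (a, s) = y s) : d2 f (a, t) = deriv y t := by
  have h1 := hasDerivAt_d2 hf
  have h2 : y =ᶠ[𝓝 t] fun s => f (a, s) := by
    filter_upwards [hy] with s hs using hs.symm
  exact (h1.congr_of_eventuallyEq h2).deriv.symm

/-- partial derivatives of the variation field along the base curve -/
theorem jet_line {c : ℝ × ℝ → E} {y : ℝ → E} {t : ℝ} (hc : Sm c (0, t))
    (hy : ∀ᶠ s in 𝓝 t, d1 c (0, s) = y s) :
    d1 c (0, t) = y t ∧ d1 (d2 c) (0, t) = deriv y t ∧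
      d1 (d2 (d2 c)) (0, t) = deriv (deriv y) t := by
  have hin : Tendsto (fun s : ℝ => ((0, s) : ℝ × ℝ)) (𝓝 t) (𝓝 (0, t)) :=
    (continuous_const.prodMk continuous_id).tendsto t
  refine ⟨hy.self_of_nhds, ?_, ?_⟩
  · rw [d1_d2 hc]
    exact d2_line (sm_d1 hc).differentiableAt hy
  · rw [d1_d2 (sm_d2 hc)]
    have h1 : d1 (d2 c) =ᶠ[𝓝 (0, t)] d2 (d1 c) := by
      filter_upwards [hc.eventually] with z hz using d1_d2 hz
    rw [d2_congr h1]
    refine d2_line (sm_d2 (sm_d1 hc)).differentiableAt ?_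
    filter_upwards [hin.eventually hc.eventually, eventually_eventually_nhds.2 hy] with s hs1 hs2
    exact d2_line (sm_d1 hs1).differentiableAt hs2

end

end Vale.Agent.P231.WC
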