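import Mathlib
import Vale.Agent.P231.Fm.Dif

/-!
# P231, stage 1, block C (push-off): calculus of the second variation in a chart
-/

set_option maxSynthPendingDepth 3
set_option linter.unusedSectionVars false
set_option linter.unusedVariables false

open Set Filter Module Topology MeasureTheory
open scoped ContDiff

namespace Vale.Agent.P231.WC

noncomputable section

open Vale.Agent.P231.Fm

variable {E F G : Type*} [NormedAddCommGroup E] [NormedSpace ℝ E] [NormedAddCommGroup F]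
  [NormedSpace ℝ F] [NormedAddCommGroup G] [NormedSpace ℝ G]

/-- partial derivative in the first variable -/
def d1 (f : ℝ × ℝ → F) (z : ℝ × ℝ) : F := fderiv ℝ f z (1, 0)

/-- partial derivative in the second variable -/
def d2 (f : ℝ × ℝ → F) (z : ℝ × ℝ) : F := fderiv ℝ f z (0, 1)

theorem sm_clm_apply {V : Type*} [NormedAddCommGroup V] [NormedSpace ℝ V] {L : V → E →L[ℝ] F}
    {u : V → E} {z : V} (hL : Sm L z) (hu : Sm u z) : Sm (fun y => L y (u y)) z := by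
  filter_upwards [hL, hu] with y h1 h2 using h1.clm_apply h2

theorem sm_const {V : Type*} [NormedAddCommGroup V] [NormedSpace ℝ V] (c : F) (z : V) :
    Sm (fun _ => c) z := Sm.of_contDiff contDiff_const z

theorem sm_d1 {f : ℝ × ℝ → F} {z : ℝ × ℝ} (h : Sm f z) : Sm (d1 f) z :=
  sm_clm_apply h.fderiv (sm_const _ _)

theorem sm_d2 {f : ℝ × ℝ → F} {z : ℝ × ℝ} (h : Sm f z) : Sm (d2 f) z :=
  sm_clm_apply h.fderiv (sm_const _ _)

theorem fderiv_fderiv_apply {f : ℝ × ℝ → F} {z : ℝ × ℝ} (h : Sm f z) (a b : ℝ × ℝ) :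
    fderiv ℝ (fun y => fderiv ℝ f y a) z b = fderiv ℝ (fderiv ℝ f) z b a := by
  have h1 := (h.fderiv.differentiableAt.hasFDerivAt.clm_apply (hasFDerivAt_const a z)).fderiv
  rw [h1]
  simp

theorem d1_d2 {f : ℝ × ℝ → F} {z : ℝ × ℝ} (h : Sm f z) : d1 (d2 f) z = d2 (d1 f) z := by
  change fderiv ℝ (fun y => fderiv ℝ f y (0, 1)) z (1, 0) =
    fderiv ℝ (fun y => fderiv ℝ f y (1, 0)) z (0, 1)
  rw [fderiv_fderiv_apply h, fderiv_fderiv_apply h]
  have h2 : IsSymmSndFDerivAt ℝ f z :=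
    (h.contDiffAt).isSymmSndFDerivAt (by simpa using two_le_infty)
  exact h2.eq _ _

theorem d1_congr {f g : ℝ × ℝ → F} {z : ℝ × ℝ} (h : f =ᶠ[𝓝 z] g) : d1 f z = d1 g z := by
  unfold d1
  rw [h.fderiv_eq]

theorem d2_congr {f g : ℝ × ℝ → F} {z : ℝ × ℝ} (h : f =ᶠ[𝓝 z] g) : d2 f z = d2 g z := by
  unfold d2
  rw [h.fderiv_eq]

theorem d1_congr' {f g : ℝ × ℝ → F} {z : ℝ × ℝ} (h : f =ᶠ[𝓝 z] g) : d1 f =ᶠ[𝓝 z] d1 g := by
  filter_upwards [eventually_eventually_nhds.2 h] with y hy using d1_congr hy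

theorem d2_congr' {f g : ℝ × ℝ → F} {z : ℝ × ℝ} (h : f =ᶠ[𝓝 z] g) : d2 f =ᶠ[𝓝 z] d2 g := by
  filter_upwards [eventually_eventually_nhds.2 h] with y hy using d2_congr hy

theorem hasDerivAt_d1 {f : ℝ × ℝ → F} {a b : ℝ} (h : DifferentiableAt ℝ f (a, b)) :
    HasDerivAt (fun s => f (s, b)) (d1 f (a, b)) a :=
  (h.hasFDerivAt (x := (a, b))).comp_hasDerivAt a
    ((hasDerivAt_id a).prodMk (hasDerivAt_const a b))

theorem hasDerivAt_d2 {f : ℝ × ℝ → F} {a b : ℝ} (h : DifferentiableAt ℝ f (a, b)) :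
    HasDerivAt (fun s => f (a, s)) (d2 f (a, b)) b :=
  (h.hasFDerivAt (x := (a, b))).comp_hasDerivAt b
    ((hasDerivAt_const b a).prodMk (hasDerivAt_id b))

theorem fderiv_clm {L : ℝ × ℝ → E →L[ℝ] F} {u : ℝ × ℝ → E} {z : ℝ × ℝ}
    (hL : DifferentiableAt ℝ L z) (hu : DifferentiableAt ℝ u z) (a : ℝ × ℝ) :
    fderiv ℝ (fun y => L y (u y)) z a = fderiv ℝ L z a (u z) + L z (fderiv ℝ u z a) := by
  rw [(hL.hasFDerivAt.clm_apply hu.hasFDerivAt).fderiv]
  simp [add_comm]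

theorem d1_clm {L : ℝ × ℝ → E →L[ℝ] F} {u : ℝ × ℝ → E} {z : ℝ × ℝ}
    (hL : Sm L z) (hu : Sm u z) : d1 (fun y => L y (u y)) z = d1 L z (u z) + L z (d1 u z) :=
  fderiv_clm hL.differentiableAt hu.differentiableAt _

theorem d2_clm {L : ℝ × ℝ → E →L[ℝ] F} {u : ℝ × ℝ → E} {z : ℝ × ℝ}
    (hL : Sm L z) (hu : Sm u z) : d2 (fun y => L y (u y)) z = d2 L z (u z) + L z (d2 u z) :=
  fderiv_clm hL.differentiableAt hu.differentiableAt _

theorem d1_comp {g : E → F} {c : ℝ × ℝ → E} {z : ℝ × ℝ} (hg : Sm g (c z)) (hc : Sm c z) :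
    d1 (fun y => g (c y)) z = fderiv ℝ g (c z) (d1 c z) := by
  have h := (hg.differentiableAt.hasFDerivAt.comp z hc.differentiableAt.hasFDerivAt).fderiv
  unfold d1
  change fderiv ℝ (g ∘ c) z (1, 0) = _
  rw [h]
  rfl

theorem d2_comp {g : E → F} {c : ℝ × ℝ → E} {z : ℝ × ℝ} (hg : Sm g (c z)) (hc : Sm c z) :
    d2 (fun y => g (c y)) z = fderiv ℝ g (c z) (d2 c z) := by
  have h := (hg.differentiableAt.hasFDerivAt.comp z hc.differentiableAt.hasFDerivAt).fderiv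
  unfold d2
  change fderiv ℝ (g ∘ c) z (0, 1) = _
  rw [h]
  rfl

/-! ### the geodesic operator -/

/-- the geodesic operator: `x` position, `p` velocity, `q` acceleration, tested on `b` -/
def Qg (A : E → E →L[ℝ] E →L[ℝ] ℝ) (x p q b : E) : ℝ :=
  fderiv ℝ A x p p b + A x q b - (1 / 2 : ℝ) * fderiv ℝ A x b p p

/-- the geodesic operator as a function of one variable -/
def Qf (A : E → E →L[ℝ] E →L[ℝ] ℝ) (y : E × E × E × E) : ℝ := Qg A y.1 y.2.1 y.2.2.1 y.2.2.2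

/-- the energy density -/
def Ae (A : E → E →L[ℝ] E →L[ℝ] ℝ) (c : ℝ × ℝ → E) (z : ℝ × ℝ) : ℝ :=
  A (c z) (d2 c z) (d2 c z)

/-- the product of the two velocities -/
def Am (A : E → E →L[ℝ] E →L[ℝ] ℝ) (c : ℝ × ℝ → E) (z : ℝ × ℝ) : ℝ :=
  A (c z) (d2 c z) (d1 c z)

variable {A : E → E →L[ℝ] E →L[ℝ] ℝ} {c : ℝ × ℝ → E} {z : ℝ × ℝ}

theorem sm_Ae (hA : Sm A (c z)) (hc : Sm c z) : Sm (Ae A c) z :=
  sm_clm_apply (sm_clm_apply (hA.comp hc) (sm_d2 hc)) (sm_d2 hc)

theorem sm_Am (hA : Sm A (c z)) (hc : Sm c z) : Sm (Am A c) z :=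
  sm_clm_apply (sm_clm_apply (hA.comp hc) (sm_d2 hc)) (sm_d1 hc)

/-- the first variation formula in a chart -/
theorem first_var (hA : Sm A (c z)) (hsymm : ∀ᶠ x in 𝓝 (c z), ∀ a b, A x a b = A x b a)
    (hc : Sm c z) :
    (1 / 2 : ℝ) * d1 (Ae A c) z = d2 (Am A c) z - Qg A (c z) (d2 c z) (d2 (d2 c) z) (d1 c z) := by
  have hAc : Sm (fun y => A (c y)) z := hA.comp hc
  have h1 : d1 (Ae A c) z = fderiv ℝ A (c z) (d1 c z) (d2 c z) (d2 c z) +
      A (c z) (d1 (d2 c) z) (d2 c z) + A (c z) (d2 c z) (d1 (d2 c) z) := by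
    have k1 := d1_clm (L := fun y => A (c y) (d2 c y)) (sm_clm_apply hAc (sm_d2 hc)) (sm_d2 hc)
    have k2 := d1_clm (L := fun y => A (c y)) hAc (sm_d2 hc)
    have k3 := d1_comp hA hc
    change d1 (fun y => A (c y) (d2 c y) (d2 c y)) z = _
    rw [k1, k2, k3]
    simp only [add_apply]
  have h2 : d2 (Am A c) z = fderiv ℝ A (c z) (d2 c z) (d2 c z) (d1 c z) +
      A (c z) (d2 (d2 c) z) (d1 c z) + A (c z) (d2 c z) (d2 (d1 c) z) := by
    have k1 := d2_clm (L := fun y => A (c y) (d2 c y)) (sm_clm_apply hAc (sm_d2 hc)) (sm_d1 hc)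
    have k2 := d2_clm (L := fun y => A (c y)) hAc (sm_d2 hc)
    have k3 := d2_comp hA hc
    change d2 (fun y => A (c y) (d2 c y) (d1 c y)) z = _
    rw [k1, k2, k3]
    simp only [add_apply]
  rw [h1, h2, d1_d2 hc, hsymm.self_of_nhds (d2 (d1 c) z) (d2 c z)]
  unfold Qg
  ring

theorem sm_Qf {y : E × E × E × E} (hA : Sm A y.1) : Sm (Qf A) y := by
  have h1 : Sm (fun y : E × E × E × E => y.1) y := Sm.of_contDiff contDiff_fst y
  have h2 : Sm (fun y : E × E × E × E => y.2.1) y :=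
    Sm.of_contDiff (contDiff_fst.comp contDiff_snd) y
  have h3 : Sm (fun y : E × E × E × E => y.2.2.1) y :=
    Sm.of_contDiff (contDiff_fst.comp (contDiff_snd.comp contDiff_snd)) y
  have h4 : Sm (fun y : E × E × E × E => y.2.2.2) y :=
    Sm.of_contDiff (contDiff_snd.comp (contDiff_snd.comp contDiff_snd)) y
  have hA1 : Sm (fun y : E × E × E × E => A y.1) y := hA.comp h1
  have hA2 : Sm (fun y : E × E × E × E => fderiv ℝ A y.1) y := hA.fderiv.comp h1
  have k1 := sm_clm_apply (sm_clm_apply (sm_clm_apply hA2 h2) h2) h4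
  have k2 := sm_clm_apply (sm_clm_apply hA1 h3) h4
  have k3 := sm_clm_apply (sm_clm_apply (sm_clm_apply hA2 h4) h2) h2
  filter_upwards [k1, k2, k3] with y e1 e2 e3
  exact (e1.add e2).sub (contDiffAt_const.mul e3)

/-- the geodesic operator is linear in the test vector -/
theorem fderiv_Qf_b {x p q b : E} (hA : Sm A x) (b' : E) :
    fderiv ℝ (Qf A) (x, p, q, b) (0, 0, 0, b') = Qg A x p q b' := by
  have h1 : HasDerivAt (fun s : ℝ => ((x, p, q, b + s • b') : E × E × E × E)) (0, 0, 0, b') 0 := by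
    have k : HasDerivAt (fun s : ℝ => b + s • b') b' 0 := by
      have k := ((hasDerivAt_id (0 : ℝ)).smul_const b').const_add b
      simpa using k
    exact (hasDerivAt_const _ _).prodMk ((hasDerivAt_const _ _).prodMk
      ((hasDerivAt_const _ _).prodMk k))
  have h2 : HasFDerivAt (Qf A) (fderiv ℝ (Qf A) (x, p, q, b)) (x, p, q, b + (0 : ℝ) • b') := by
    rw [zero_smul, add_zero]
    exact (sm_Qf (y := (x, p, q, b)) hA).differentiableAt.hasFDerivAt
  have h3 := h2.comp_hasDerivAt (0 : ℝ) h1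
  have h4 : HasDerivAt (fun s : ℝ => Qg A x p q b + s * Qg A x p q b') (Qg A x p q b') 0 := by
    have k := ((hasDerivAt_id (0 : ℝ)).mul_const (Qg A x p q b')).const_add (Qg A x p q b)
    simpa using k
  have h5 : (Qf A ∘ fun s : ℝ => ((x, p, q, b + s • b') : E × E × E × E)) =
      fun s : ℝ => Qg A x p q b + s * Qg A x p q b' := by
    funext s
    simp only [Function.comp_apply, Qf, Qg, map_add, map_smul, add_apply,
      smul_apply, smul_eq_mul]
    ring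
  rw [h5] at h3
  exact h3.unique h4

/-- the geodesic operator is affine in the acceleration -/
theorem fderiv_Qf_q {x p q b : E} (hA : Sm A x) (δ : E) :
    fderiv ℝ (Qf A) (x, p, q, b) (0, 0, δ, 0) = A x δ b := by
  have h1 : HasDerivAt (fun s : ℝ => ((x, p, q + s • δ, b) : E × E × E × E)) (0, 0, δ, 0) 0 := by
    have k : HasDerivAt (fun s : ℝ => q + s • δ) δ 0 := by
      have k := ((hasDerivAt_id (0 : ℝ)).smul_const δ).const_add q
      simpa using k
    exact (hasDerivAt_const _ _).prodMk ((hasDerivAt_const _ _).prodMk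
      (k.prodMk (hasDerivAt_const _ _)))
  have h2 : HasFDerivAt (Qf A) (fderiv ℝ (Qf A) (x, p, q, b)) (x, p, q + (0 : ℝ) • δ, b) := by
    rw [zero_smul, add_zero]
    exact (sm_Qf (y := (x, p, q, b)) hA).differentiableAt.hasFDerivAt
  have h3 := h2.comp_hasDerivAt (0 : ℝ) h1
  have h4 : HasDerivAt (fun s : ℝ => Qg A x p q b + s * A x δ b) (A x δ b) 0 := by
    have k := ((hasDerivAt_id (0 : ℝ)).mul_const (A x δ b)).const_add (Qg A x p q b)
    simpa using k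
  have h5 : (Qf A ∘ fun s : ℝ => ((x, p, q + s • δ, b) : E × E × E × E)) =
      fun s : ℝ => Qg A x p q b + s * A x δ b := by
    funext s
    simp only [Function.comp_apply, Qf, Qg, map_add, map_smul, add_apply,
      smul_apply, smul_eq_mul]
    ring
  rw [h5] at h3
  exact h3.unique h4

/-- the linearized geodesic operator along a family of curves -/
theorem d1_Qf (hA : Sm A (c z)) (hc : Sm c z) (b : E) :
    d1 (fun y => Qg A (c y) (d2 c y) (d2 (d2 c) y) b) z =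
      fderiv ℝ (Qf A) (c z, d2 c z, d2 (d2 c) z, b) (d1 c z, d1 (d2 c) z, d1 (d2 (d2 c)) z, 0) := by
  have hj : Sm (fun y => ((c y, d2 c y, d2 (d2 c) y, b) : E × E × E × E)) z :=
    hc.prodMk ((sm_d2 hc).prodMk ((sm_d2 (sm_d2 hc)).prodMk (sm_const b z)))
  have h1 := d1_comp (g := Qf A) (c := fun y => ((c y, d2 c y, d2 (d2 c) y, b) : E × E × E × E))
    (z := z) (sm_Qf hA) hj
  have h2 : d1 (fun y => ((c y, d2 c y, d2 (d2 c) y, b) : E × E × E × E)) z =
      (d1 c z, d1 (d2 c) z, d1 (d2 (d2 c)) z, 0) := by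
    have k1 := hc.differentiableAt.hasFDerivAt
    have k2 := (sm_d2 hc).differentiableAt.hasFDerivAt
    have k3 := (sm_d2 (sm_d2 hc)).differentiableAt.hasFDerivAt
    have k4 := (k1.prodMk (k2.prodMk (k3.prodMk (hasFDerivAt_const b z)))).fderiv
    change fderiv ℝ (fun y => ((c y, d2 c y, d2 (d2 c) y, b) : E × E × E × E)) z (1, 0) = _
    rw [k4]
    rfl
  rw [h2] at h1
  exact h1

/-- THE SECOND VARIATION in a chart -/
theorem second_var (hA : Sm A (c z)) (hsymm : ∀ᶠ x in 𝓝 (c z), ∀ a b, A x a b = A x b a)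
    (hc : Sm c z) (hgeo : ∀ b, Qg A (c z) (d2 c z) (d2 (d2 c) z) b = 0) {δ : E}
    (hδ : ∀ b, fderiv ℝ (Qf A) (c z, d2 c z, d2 (d2 c) z, b)
      (d1 c z, d1 (d2 c) z, d1 (d2 (d2 c)) z, 0) = A (c z) δ b) :
    (1 / 2 : ℝ) * d1 (d1 (Ae A c)) z = d2 (d1 (Am A c)) z - A (c z) δ (d1 c z) := by
  have hA' : ∀ᶠ y in 𝓝 z, Sm A (c y) := hc.continuousAt.eventually hA.eventually
  have hs' : ∀ᶠ y in 𝓝 z, ∀ᶠ x in 𝓝 (c y), ∀ a b, A x a b = A x b a :=
    hc.continuousAt.eventually (eventually_eventually_nhds.2 hsymm)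
  have hfirst : (fun y => d1 (Ae A c) y) =ᶠ[𝓝 z] fun y =>
      2 * d2 (Am A c) y - 2 * Qf A (c y, d2 c y, d2 (d2 c) y, d1 c y) := by
    filter_upwards [hA', hs', hc.eventually] with y e1 e2 e3
    have k := first_var e1 e2 e3
    change d1 (Ae A c) y = 2 * d2 (Am A c) y - 2 * Qg A (c y) (d2 c y) (d2 (d2 c) y) (d1 c y)
    linarith
  have hj : Sm (fun y => ((c y, d2 c y, d2 (d2 c) y, d1 c y) : E × E × E × E)) z :=
    hc.prodMk ((sm_d2 hc).prodMk ((sm_d2 (sm_d2 hc)).prodMk (sm_d1 hc)))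
  have hQ : Sm (fun y => Qf A (c y, d2 c y, d2 (d2 c) y, d1 c y)) z :=
    Sm.comp (f := Qf A) (g := fun y => ((c y, d2 c y, d2 (d2 c) y, d1 c y) : E × E × E × E))
      (sm_Qf hA) hj
  have hm : Sm (d2 (Am A c)) z := sm_d2 (sm_Am hA hc)
  have h1 := d1_congr hfirst
  have h2 : d1 (fun y => 2 * d2 (Am A c) y - 2 * Qf A (c y, d2 c y, d2 (d2 c) y, d1 c y)) z =
      2 * d1 (d2 (Am A c)) z - 2 * d1 (fun y => Qf A (c y, d2 c y, d2 (d2 c) y, d1 c y)) z := by
    have k1 := hm.differentiableAt.hasFDerivAt.const_mul 2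
    have k2 := hQ.differentiableAt.hasFDerivAt.const_mul 2
    have k3 : HasFDerivAt (fun y => 2 * d2 (Am A c) y -
        2 * Qf A (c y, d2 c y, d2 (d2 c) y, d1 c y)) _ z := k1.sub k2
    have k4 := k3.fderiv
    change fderiv ℝ (fun y => 2 * d2 (Am A c) y -
      2 * Qf A (c y, d2 c y, d2 (d2 c) y, d1 c y)) z (1, 0) = _
    rw [k4]
    simp [d1]
  have h3 := d1_comp (g := Qf A) (c := fun y => ((c y, d2 c y, d2 (d2 c) y, d1 c y) :
    E × E × E × E)) (z := z) (sm_Qf hA) hj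
  have h4 : d1 (fun y => ((c y, d2 c y, d2 (d2 c) y, d1 c y) : E × E × E × E)) z =
      (d1 c z, d1 (d2 c) z, d1 (d2 (d2 c)) z, 0) + (0, 0, 0, d1 (d1 c) z) := by
    have k1 := hc.differentiableAt.hasFDerivAt
    have k2 := (sm_d2 hc).differentiableAt.hasFDerivAt
    have k3 := (sm_d2 (sm_d2 hc)).differentiableAt.hasFDerivAt
    have k5 := (sm_d1 hc).differentiableAt.hasFDerivAt
    have k4 := (k1.prodMk (k2.prodMk (k3.prodMk k5))).fderiv
    change fderiv ℝ (fun y => ((c y, d2 c y, d2 (d2 c) y, d1 c y) : E × E × E × E)) z (1, 0) = _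
    rw [k4]
    simp [d1]
  rw [h4, map_add, hδ, fderiv_Qf_b hA, hgeo, add_zero] at h3
  rw [h1, h2, h3, d1_d2 (sm_Am hA hc)]
  ring

end

end Vale.Agent.P231.WC
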