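import Vale.Agent.P231.WC.Vel
import Vale.Agent.P231.WC.Slide

/-!
# P231, stage 1, block C (push-off): the metric in a chart and the geodesic equation
-/

set_option maxSynthPendingDepth 3
set_option linter.unusedSectionVars false
set_option linter.unusedVariables false

open Bundle Manifold Set Filter Module
open scoped ContDiff Manifold Topology

namespace Vale.Agent.P231.WC

noncomputable section

open Vale.Agent.P234 Vale.Agent.P231 Vale.Agent.P231.Fm Vale.Agent.P231.W Vale.Agent.P231.WR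
open Vale.Agent.P231.H775

section Chart

variable {E : Type*} [NormedAddCommGroup E] [NormedSpace ℝ E] [FiniteDimensional ℝ E]
  {M : Type*} [MetricSpace M] [ChartedSpace E M] [IsManifold 𝓘(ℝ, E) ∞ M]
  [RiemannianBundle (fun x : M => TangentSpace 𝓘(ℝ, E) x)]
  [IsContMDiffRiemannianBundle 𝓘(ℝ, E) ∞ E (fun x : M => TangentSpace 𝓘(ℝ, E) x)]

/-- the metric in the chart at `x₀` -/
def cm (x₀ : M) : E → E →L[ℝ] E →L[ℝ] ℝ := (exists_chart_metric (E := E) x₀).choose

theorem sm_cm (x₀ : M) {X : E} (hX : X ∈ (extChartAt 𝓘(ℝ, E) x₀).target) : Sm (cm x₀) X :=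
  Sm.of_contDiffOn (exists_chart_metric (E := E) x₀).choose_spec.1
    (isOpen_extChartAt_target x₀) hX

theorem cm_dch (x₀ : M) {X : E} (hX : X ∈ (extChartAt 𝓘(ℝ, E) x₀).target) (a b : E) :
    cm x₀ X a b = inner ℝ (dch x₀ X a) (dch x₀ X b) :=
  (exists_chart_metric (E := E) x₀).choose_spec.2 X hX a b

theorem cm_symm (x₀ : M) {X : E} (hX : X ∈ (extChartAt 𝓘(ℝ, E) x₀).target) :
    ∀ᶠ X in 𝓝 X, ∀ a b : E, cm x₀ X a b = cm x₀ X b a := by
  filter_upwards [(isOpen_extChartAt_target x₀).mem_nhds hX] with X' hX' a b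
  rw [cm_dch x₀ hX', cm_dch x₀ hX', real_inner_comm]

theorem cm_ip (x₀ : M) {x : M} (hx : x ∈ (extChartAt 𝓘(ℝ, E) x₀).source) (a b : E) :
    cm x₀ (extChartAt 𝓘(ℝ, E) x₀ x) (crd x₀ x a) (crd x₀ x b) = ip x a b := by
  rw [cm_dch x₀ ((extChartAt 𝓘(ℝ, E) x₀).map_source hx)]
  have h1 : ∀ a : E, (dch x₀ (extChartAt 𝓘(ℝ, E) x₀ x) (crd x₀ x a) : E) = a := fun a =>
    (WG.vec_congr x₀ ((extChartAt 𝓘(ℝ, E) x₀).left_inv hx) _).trans (vec_crd x₀ hx a)
  have h2 : ∀ (y z : M) (a b a' b' : E), y = z → a = a' → b = b' →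
      ip y a b = ip z a' b' := by
    rintro y z a b a' b' rfl rfl rfl
    rfl
  exact h2 _ _ _ _ _ _ ((extChartAt 𝓘(ℝ, E) x₀).left_inv hx) (h1 a) (h1 b)

/-- smoothness of a two parameter family near a point -/
def S2 (g : ℝ × ℝ → M) (z : ℝ × ℝ) : Prop :=
  ∀ᶠ y in 𝓝 z, ContMDiffAt 𝓘(ℝ, ℝ × ℝ) 𝓘(ℝ, E) ∞ g y

variable {g : ℝ × ℝ → M} {z : ℝ × ℝ}

theorem S2.eventually (h : S2 (E := E) g z) : ∀ᶠ y in 𝓝 z, S2 (E := E) g y :=
  eventually_eventually_nhds.2 h

theorem S2.src (h : S2 (E := E) g z) (x₀ : M) (hx : g z ∈ (extChartAt 𝓘(ℝ, E) x₀).source) :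
    ∀ᶠ y in 𝓝 z, g y ∈ (extChartAt 𝓘(ℝ, E) x₀).source :=
  h.self_of_nhds.continuousAt.eventually ((isOpen_extChartAt_source x₀).mem_nhds hx)

theorem S2.sm (h : S2 (E := E) g z) (x₀ : M) (hx : g z ∈ (extChartAt 𝓘(ℝ, E) x₀).source) :
    Sm (fun y => extChartAt 𝓘(ℝ, E) x₀ (g y)) z := by
  filter_upwards [h, h.src x₀ hx] with y h1 h2
  exact contDiffAt_chart x₀ h2 h1

theorem S2.line1 (h : S2 (E := E) g z) : ContMDiffAt 𝓘(ℝ, ℝ) 𝓘(ℝ, E) ∞ (fun s => g (s, z.2)) z.1 :=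
  ContMDiffAt.comp z.1 (g := g) (f := fun s : ℝ => ((s, z.2) : ℝ × ℝ)) h.self_of_nhds
    (contDiffAt_id.prodMk contDiffAt_const).contMDiffAt

theorem S2.line2 (h : S2 (E := E) g z) : ContMDiffAt 𝓘(ℝ, ℝ) 𝓘(ℝ, E) ∞ (fun s => g (z.1, s)) z.2 :=
  ContMDiffAt.comp z.2 (g := g) (f := fun s : ℝ => ((z.1, s) : ℝ × ℝ)) h.self_of_nhds
    (contDiffAt_const.prodMk contDiffAt_id).contMDiffAt

/-- first partial derivative in a chart -/
theorem S2.d1 (h : S2 (E := E) g z) (x₀ : M) (hx : g z ∈ (extChartAt 𝓘(ℝ, E) x₀).source) :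
    WC.d1 (fun y => extChartAt 𝓘(ℝ, E) x₀ (g y)) z =
      crd x₀ (g z) (vl (fun s => g (s, z.2)) z.1 : E) := by
  have h1 := hasDerivAt_d1 (a := z.1) (b := z.2) (h.sm x₀ hx).differentiableAt
  have h2 := crd_vl (g := fun s => g (s, z.2)) (t := z.1) x₀ hx h.line1
  exact h1.deriv.symm.trans h2.symm

/-- second partial derivative in a chart -/
theorem S2.d2 (h : S2 (E := E) g z) (x₀ : M) (hx : g z ∈ (extChartAt 𝓘(ℝ, E) x₀).source) :
    WC.d2 (fun y => extChartAt 𝓘(ℝ, E) x₀ (g y)) z =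
      crd x₀ (g z) (vl (fun s => g (z.1, s)) z.2 : E) := by
  have h1 := hasDerivAt_d2 (a := z.1) (b := z.2) (h.sm x₀ hx).differentiableAt
  have h2 := crd_vl (g := fun s => g (z.1, s)) (t := z.2) x₀ hx h.line2
  exact h1.deriv.symm.trans h2.symm

/-- the energy density in a chart -/
theorem S2.ae (h : S2 (E := E) g z) (x₀ : M) (hx : g z ∈ (extChartAt 𝓘(ℝ, E) x₀).source) :
    Ae (cm x₀) (fun y => extChartAt 𝓘(ℝ, E) x₀ (g y)) z =
      nm (g z) (vl (fun s => g (z.1, s)) z.2 : E) ^ 2 := by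
  unfold Ae
  rw [h.d2 x₀ hx, cm_ip x₀ hx]
  exact real_inner_self_eq_norm_sq (F := TangentSpace 𝓘(ℝ, E) (g z)) _

/-- the product of the velocities in a chart -/
theorem S2.am (h : S2 (E := E) g z) (x₀ : M) (hx : g z ∈ (extChartAt 𝓘(ℝ, E) x₀).source) :
    Am (cm x₀) (fun y => extChartAt 𝓘(ℝ, E) x₀ (g y)) z =
      ip (g z) (vl (fun s => g (z.1, s)) z.2 : E) (vl (fun s => g (s, z.2)) z.1 : E) := by
  unfold Am
  rw [h.d2 x₀ hx, h.d1 x₀ hx, cm_ip x₀ hx]

end Chart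

variable {E : Type*} [NormedAddCommGroup E] [NormedSpace ℝ E]
  {M : Type*} [MetricSpace M] [ChartedSpace E M]
  [RiemannianBundle (fun x : M => TangentSpace 𝓘(ℝ, E) x)]
  {e : ∀ x : M, TangentSpace 𝓘(ℝ, E) x → M}

variable [FiniteDimensional ℝ E] [IsManifold 𝓘(ℝ, E) ∞ M]
  [IsContMDiffRiemannianBundle 𝓘(ℝ, E) ∞ E (fun x : M => TangentSpace 𝓘(ℝ, E) x)]
  [CompactSpace M] [ConnectedSpace M] [IsRiemannianManifold 𝓘(ℝ, E) M]

/-- the family of geodesics from `y` with velocity `v + θ w` -/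
def fam (e : ∀ x : M, TangentSpace 𝓘(ℝ, E) x → M) (y : M) (v w : E) (a : ℝ) (z : ℝ × ℝ) : M :=
  gam e y (v + z.1 • w) (z.2 - a)

theorem s2_fam (F : Facts e) (y : M) (v w : E) (a : ℝ) (z : ℝ × ℝ) :
    S2 (E := E) (fam e y v w a) z := by
  refine Eventually.of_forall fun z => ?_
  have h1 : ContMDiff 𝓘(ℝ, TangentSpace 𝓘(ℝ, E) y) 𝓘(ℝ, E) ∞ (e y) :=
    contMDiff_exp_fiber F.isExp y
  let v' : TangentSpace 𝓘(ℝ, E) y := v
  let w' : TangentSpace 𝓘(ℝ, E) y := w
  have h2 : ContDiff ℝ ∞ (fun z : ℝ × ℝ => (z.2 - a) • (v' + z.1 • w')) :=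
    (contDiff_snd.sub contDiff_const).smul
      (contDiff_const.add (contDiff_fst.smul contDiff_const))
  have h3 : ContMDiffAt 𝓘(ℝ, ℝ × ℝ) 𝓘(ℝ, TangentSpace 𝓘(ℝ, E) y) ∞
      (fun z : ℝ × ℝ => (z.2 - a) • (v' + z.1 • w')) z := h2.contMDiff.contMDiffAt
  have h4 := ContMDiffAt.comp z (h1.contMDiffAt (x := (z.2 - a) • (v' + z.1 • w'))) h3
  exact h4

/-- two-jets along a line -/
theorem jet2 {F' : Type*} [NormedAddCommGroup F'] [NormedSpace ℝ F'] {c : ℝ × ℝ → F'} {κ : ℝ → F'}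
    {θ t : ℝ} (hc : Sm c (θ, t)) (h : ∀ᶠ s in 𝓝 t, c (θ, s) = κ s) :
    c (θ, t) = κ t ∧ d2 c (θ, t) = deriv κ t ∧ d2 (d2 c) (θ, t) = deriv (deriv κ) t := by
  have hin : Tendsto (fun s : ℝ => ((θ, s) : ℝ × ℝ)) (𝓝 t) (𝓝 (θ, t)) :=
    (continuous_const.prodMk continuous_id).tendsto t
  refine ⟨h.self_of_nhds, d2_line hc.differentiableAt h, ?_⟩
  refine d2_line (sm_d2 hc).differentiableAt ?_
  filter_upwards [hin.eventually hc.eventually, eventually_eventually_nhds.2 h] with s hs1 hs2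
  exact d2_line hs1.differentiableAt hs2

theorem vl_fam2 (F : Facts e) (y : M) (v w : E) (a : ℝ) (z : ℝ × ℝ) :
    (vl (fun s => fam e y v w a (z.1, s)) z.2 : E) = vel e y (v + z.1 • w) (z.2 - a) := by
  have h1 := mfderiv_gam_shift F.isExp y (v + z.1 • w) (-a) z.2
  have h2 : (fun s => fam e y v w a (z.1, s)) = fun t => gam e y (v + z.1 • w) (-a + t) := by
    funext s
    unfold fam
    rw [neg_add_eq_sub]
  have h3 : vel e y (v + z.1 • w) (-a + z.2) = vel e y (v + z.1 • w) (z.2 - a) := by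
    rw [neg_add_eq_sub]
  rw [← h3, ← h1]
  exact congrArg (fun f : ℝ → M => (vl f z.2 : E)) h2

theorem vl_fam1 (F : Facts e) (y : M) (v w : E) (a t : ℝ) :
    (vl (fun s => fam e y v w a (s, t)) 0 : E) = (t - a) • dE e y ((t - a) • v) w := by
  let v' : TangentSpace 𝓘(ℝ, E) y := v
  let w' : TangentSpace 𝓘(ℝ, E) y := w
  have hc : HasDerivAt (fun s : ℝ => (t - a) • (v' + s • w')) ((t - a) • w') 0 := by
    have k0 : HasDerivAt (fun s : ℝ => v' + s • w') w' 0 := by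
      have k := ((hasDerivAt_id (0 : ℝ)).smul_const w').const_add v'
      simpa using k
    exact k0.const_smul (t - a)
  have h1 := mfderiv_exp_curve F.isExp y hc
  have h2 : (vl (fun s => fam e y v w a (s, t)) 0 : E) =
      dE e y ((t - a) • (v + (0 : ℝ) • w)) ((t - a) • w) := h1
  rw [h2, dE_smul, zero_smul, add_zero]

/-- THE GEODESIC EQUATION in a chart -/
theorem geo_eq (F : Facts e) {D : ℝ} (hD : 0 < D) (hB : InjGE e D) {x : M} {u : E}
    (hu : nm x u = 1) (x₀ : M) (hx : x ∈ (extChartAt 𝓘(ℝ, E) x₀).source) {c : ℝ × ℝ → E} {θ : ℝ}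
    (hc : Sm c (θ, 0)) (hcx : ∀ᶠ t in 𝓝 (0 : ℝ), c (θ, t) = extChartAt 𝓘(ℝ, E) x₀ (gam e x u t))
    (b : E) :
    Qg (cm x₀) (c (θ, 0)) (d2 c (θ, 0)) (d2 (d2 c) (θ, 0)) b = 0 := by
  set a : ℝ := -(D / 2) with ha
  set y : M := gam e x u a with hy
  set v : E := vel e x u a with hv
  have hx0 : gam e x u 0 = x := gam_zero F.isExp x u
  -- the variation with parameter `w`
  have key : ∀ w : E, Qg (cm x₀) (c (θ, 0)) (d2 c (θ, 0)) (d2 (d2 c) (θ, 0))
      (crd x₀ x (jf e x u a 0 w : E)) = 0 := by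
    intro w
    set g := fam e y v w a with hg
    have hgt : ∀ t, g (0, t) = gam e x u t := by
      intro t
      rw [hg]
      unfold fam
      change gam e y (v + (0 : ℝ) • w) (t - a) = gam e x u t
      rw [zero_smul, add_zero, hy, hv, gam_flow F]
      congr 1
      ring
    have hg0 : g (0, 0) = x := by rw [hgt, hx0]
    have hs : S2 (E := E) g (0, 0) := s2_fam F y v w a _
    have hsrc : g (0, 0) ∈ (extChartAt 𝓘(ℝ, E) x₀).source := by rw [hg0]; exact hx
    set C : ℝ × ℝ → E := fun z => extChartAt 𝓘(ℝ, E) x₀ (g z) with hC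
    have hCs : Sm C (0, 0) := hs.sm x₀ hsrc
    -- jets
    have hj := jet2 hc hcx
    have hj' := jet2 (c := C) (κ := fun t => extChartAt 𝓘(ℝ, E) x₀ (gam e x u t)) hCs
      (Eventually.of_forall fun t => by simp only [hC, hgt])
    have htar : C (0, 0) ∈ (extChartAt 𝓘(ℝ, E) x₀).target :=
      (extChartAt 𝓘(ℝ, E) x₀).map_source hsrc
    have hfv := first_var (A := cm x₀) (c := C) (z := (0, 0)) (sm_cm x₀ htar) (cm_symm x₀ htar) hCs
    -- the energy
    have hAe : Ae (cm x₀) C =ᶠ[𝓝 (0, 0)] fun z => nm y (v + z.1 • w) ^ 2 := by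
      filter_upwards [hs.eventually, hs.src x₀ hsrc] with z h1 h2
      rw [hC, h1.ae x₀ h2, hg, vl_fam2 F]
      congr 1
      exact nm_vel F y (v + z.1 • w) (z.2 - a)
    have hAe' : d1 (Ae (cm x₀) C) (0, 0) = 2 * ip y v w := by
      have k1 : Sm (Ae (cm x₀) C) (0, 0) := sm_Ae (sm_cm x₀ htar) hCs
      have k2 := hasDerivAt_d1 (a := 0) (b := 0) k1.differentiableAt
      have k3 : (fun s => Ae (cm x₀) C (s, 0)) =ᶠ[𝓝 0] fun s => nm y (v + s • w) ^ 2 := by
        have hin : Tendsto (fun s : ℝ => ((s, 0) : ℝ × ℝ)) (𝓝 0) (𝓝 (0, 0)) :=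
          (continuous_id.prodMk continuous_const).tendsto 0
        exact hin.eventually hAe
      let v' : TangentSpace 𝓘(ℝ, E) y := v
      let w' : TangentSpace 𝓘(ℝ, E) y := w
      have k4 : HasDerivAt (fun s : ℝ => v' + s • w') w' 0 := by
        have k := ((hasDerivAt_id (0 : ℝ)).smul_const w').const_add v'
        simpa using k
      have k5 : HasDerivAt (fun s : ℝ => ‖v' + s • w'‖ ^ 2) (2 * inner ℝ (v' + (0 : ℝ) • w') w') 0 :=
        k4.norm_sq
      rw [zero_smul, add_zero] at k5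
      exact (k2.congr_of_eventuallyEq k3.symm).unique k5
    -- the product
    have hAm : d2 (Am (cm x₀) C) (0, 0) = ip y v w := by
      have k1 : Sm (Am (cm x₀) C) (0, 0) := sm_Am (sm_cm x₀ htar) hCs
      have k2 := hasDerivAt_d2 (a := 0) (b := 0) k1.differentiableAt
      have k3 : (fun t => Am (cm x₀) C (0, t)) =ᶠ[𝓝 0] fun t => (t - a) * ip y v w := by
        have hin : Tendsto (fun t : ℝ => ((0, t) : ℝ × ℝ)) (𝓝 0) (𝓝 (0, 0)) :=
          (continuous_const.prodMk continuous_id).tendsto 0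
        filter_upwards [hin.eventually hs.eventually, hin.eventually (hs.src x₀ hsrc)] with t h1 h2
        rw [hC, h1.am x₀ h2, hg, vl_fam2 F, vl_fam1 F]
        have e1 : fam e y v w a (0, t) = gam e x u t := hgt t
        have e2 : vel e y (v + ((0, t) : ℝ × ℝ).1 • w) (((0, t) : ℝ × ℝ).2 - a) =
            vel e x u t := by
          change vel e y (v + (0 : ℝ) • w) (t - a) = vel e x u t
          rw [zero_smul, add_zero, hy, hv, vel_flow F]
          congr 1
          ring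
        have e3 : (t - a) • dE e y ((t - a) • v) w = jf e x u a t w := rfl
        rw [e1, e2]
        change ip (gam e x u t) (vel e x u t) ((t - a) • dE e y ((t - a) • v) w) = _
        rw [e3, ip_comm', gauss F x u hu a t w, ip_comm']
      have k4 : HasDerivAt (fun t : ℝ => (t - a) * ip y v w) (ip y v w) 0 := by
        have k := ((hasDerivAt_id (0 : ℝ)).sub_const a).mul_const (ip y v w)
        simpa using k
      exact (k2.congr_of_eventuallyEq k3.symm).unique k4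
    have hd1 : d1 C (0, 0) = crd x₀ x (jf e x u a 0 w : E) := by
      rw [hC, hs.d1 x₀ hsrc, hg]
      have e1 := vl_fam1 F y v w a 0
      change crd x₀ (g (0, 0)) (vl (fun s => fam e y v w a (s, 0)) 0 : E) = _
      rw [e1]
      have e3 : (0 - a) • dE e y ((0 - a) • v) w = jf e x u a 0 w := rfl
      rw [e3]
      have e4 : ∀ (p q : M) (ξ : E), p = q → (crd x₀ p ξ : E) = crd x₀ q ξ := by
        rintro p q ξ rfl
        rfl
      exact e4 _ _ _ hg0
    rw [hAe', hAm, hd1] at hfv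
    rw [hj.1, hj.2.1, hj.2.2, ← hj'.1, ← hj'.2.1, ← hj'.2.2]
    linarith
  -- surjectivity
  have hsur : Function.Surjective fun w : E => (jf e x u a 0 w : E) := by
    let L : E →ₗ[ℝ] E :=
      { toFun := fun w => jf e x u a 0 w
        map_add' := fun w w' => by
          unfold jf
          rw [dE_add, smul_add]
        map_smul' := fun r w => by
          unfold jf
          rw [dE_smul, smul_comm]
          rfl }
    have hinj : Function.Injective L := by
      rw [← LinearMap.ker_eq_bot, LinearMap.ker_eq_bot']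
      intro w hw
      have k1 : (0 - a) • dE e (gam e x u a) ((0 - a) • vel e x u a) w = 0 := hw
      have k2 : (0 - a) ≠ 0 := by rw [ha]; simp; exact hD.ne'
      have k3 := (smul_eq_zero.1 k1).resolve_left k2
      refine dE_injective F hB ?_ k3
      rw [nm_smul, nm_vel F, hu, mul_one, ha, zero_sub, neg_neg, abs_of_pos (half_pos hD)]
      exact half_lt_self hD
    exact (LinearMap.injective_iff_surjective (f := L)).1 hinj
  obtain ⟨w, hw⟩ := hsur (vec x₀ x b : E)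
  have h1 := key w
  have h2 : (crd x₀ x (jf e x u a 0 w : E) : E) = b := by
    have h3 : (jf e x u a 0 w : E) = vec x₀ x b := hw
    rw [h3]
    exact crd_vec x₀ hx b
  rw [h2] at h1
  exact h1

end

end Vale.Agent.P231.WC
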