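import Vale.Agent.P231.WC.Geod
import Vale.Agent.P231.H583.C1
import Vale.Agent.P231.WR.Th

/-!
# P231, stage 1, block C (push-off): the rotated geodesics and their variation fields in a chart
-/

set_option maxSynthPendingDepth 3
set_option linter.unusedSectionVars false
set_option linter.unusedVariables false

open Bundle Manifold Set Filter Module
open scoped ContDiff Manifold Topology

namespace Vale.Agent.P231.WC

noncomputable section

open Vale.Agent.P234 Vale.Agent.P231 Vale.Agent.P231.Fm Vale.Agent.P231.W Vale.Agent.P231.WR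
open Vale.Agent.P231.H775

variable {E : Type*} [NormedAddCommGroup E] [NormedSpace ℝ E]
  {M : Type*} [MetricSpace M] [ChartedSpace E M]
  [RiemannianBundle (fun x : M => TangentSpace 𝓘(ℝ, E) x)]
  {e : ∀ x : M, TangentSpace 𝓘(ℝ, E) x → M}

variable [FiniteDimensional ℝ E] [IsManifold 𝓘(ℝ, E) ∞ M]
  [IsContMDiffRiemannianBundle 𝓘(ℝ, E) ∞ E (fun x : M => TangentSpace 𝓘(ℝ, E) x)]
  [CompactSpace M] [ConnectedSpace M] [IsRiemannianManifold 𝓘(ℝ, E) M]

variable {D : ℝ} {w : UT E M → UT E M}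

theorem crd_congr (x₀ : M) {p q : M} {ξ η : E} (h : p = q) (h' : ξ = η) :
    (crd x₀ p ξ : E) = crd x₀ q η := by
  subst h
  subst h'
  rfl

/-- the rotated geodesics -/
def ks (e : ∀ x : M, TangentSpace 𝓘(ℝ, E) x → M) (h : IsSec e D w) (u : UT E M) (s : ℝ)
    (z : ℝ × ℝ) : M := gm e (h.rot (u, z.1), z.2 - s)

theorem s2_ks (F : Facts e) (hD : 0 < D) (hB : InjGE e D)
    (hdiam : ∀ p q : M, dist p q ≤ D) (h : IsSec e D w) (u : UT E M) (s : ℝ) (z : ℝ × ℝ) :
    S2 (E := E) (ks e h u s) z := by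
  have h1 : Sm (fun z : ℝ × ℝ => z.1) z := Sm.of_contDiff contDiff_fst z
  have h2 : Sm (fun z : ℝ × ℝ => z.2 - s) z := Sm.of_contDiff (contDiff_snd.sub contDiff_const) z
  have h3 : (dUT E M).At (fun z : ℝ × ℝ => h.rot (u, z.1)) z :=
    h.map_rot F hD hB hdiam (u := fun z : ℝ × ℝ => (u, z.1)) ⟨H583.at_const u z, h1⟩
  exact map_gm F (u := fun z : ℝ × ℝ => (h.rot (u, z.1), z.2 - s)) ⟨h3, h2⟩

/-- the derivative in the angle is the field `Jw` -/
theorem vl_ks (F : Facts e) (h : IsSec e D w) (u : UT E M) (s t : ℝ) :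
    (vl (fun θ => ks e h u s (θ, t)) 0 : E) = Jw e w u (t - s) := by
  let v' : TangentSpace 𝓘(ℝ, E) (foot u) := vec' (E := E) u
  let w' : TangentSpace 𝓘(ℝ, E) (foot u) := vec' (E := E) (w u)
  have hc : HasDerivAt (fun θ : ℝ => ((t - s) • (Real.cos θ • v' + Real.sin θ • w') :
      TangentSpace 𝓘(ℝ, E) (foot u))) ((t - s) • w') 0 := by
    have a1 : HasDerivAt (fun θ : ℝ => (Real.cos θ • v' : TangentSpace 𝓘(ℝ, E) (foot u)))
        ((-Real.sin 0) • v') 0 := (Real.hasDerivAt_cos 0).smul_const v'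
    have a2 : HasDerivAt (fun θ : ℝ => (Real.sin θ • w' : TangentSpace 𝓘(ℝ, E) (foot u)))
        (Real.cos 0 • w') 0 := (Real.hasDerivAt_sin 0).smul_const w'
    have k1 : HasDerivAt (fun θ : ℝ => (Real.cos θ • v' + Real.sin θ • w' :
        TangentSpace 𝓘(ℝ, E) (foot u))) ((-Real.sin 0) • v' + Real.cos 0 • w') 0 := a1.add a2
    rw [Real.sin_zero, Real.cos_zero, neg_zero, zero_smul, one_smul, zero_add] at k1
    exact k1.const_smul (t - s)
  have h1 := mfderiv_exp_curve F.isExp (foot u) hc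
  have h2 : (vl (fun θ => ks e h u s (θ, t)) 0 : E) =
      dE e (foot u) ((t - s) • (Real.cos 0 • vec' u + Real.sin 0 • vec' (w u)))
        ((t - s) • vec' (w u)) := h1
  rw [h2, dE_smul, Real.cos_zero, Real.sin_zero, one_smul, zero_smul, add_zero]
  unfold Jw
  rw [H703.jf_zero F]

/-- the velocity in time -/
theorem vl_ks2 (F : Facts e) (h : IsSec e D w) (u : UT E M) (s : ℝ) (z : ℝ × ℝ) :
    (vl (fun t => ks e h u s (z.1, t)) z.2 : E) = vec' (phi F (h.rot (u, z.1), z.2 - s)) := by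
  set y := h.rot (u, z.1) with hy
  have h1 := mfderiv_gam_shift F.isExp (foot y) (vec' y) (-s) z.2
  have h2 : (fun t => ks e h u s (z.1, t)) = fun t => gam e (foot y) (vec' y) (-s + t) := by
    funext t
    unfold ks gm
    rw [neg_add_eq_sub]
  have h3 : vel e (foot y) (vec' y) (-s + z.2) = vec' (phi F (y, z.2 - s)) := by
    rw [vec'_phi, neg_add_eq_sub]
  rw [← h3, ← h1]
  exact congrArg (fun f : ℝ → M => (vl f z.2 : E)) h2

/-- the field vanishes at the time `D` -/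
theorem Jw_D (F : Facts e) (hD : 0 < D) (hB : InjGE e D) (hdiam : ∀ p q : M, dist p q ≤ D)
    (h : IsSec e D w) (u : UT E M) : Jw e w u D = 0 := by
  have h1 := vl_ks F h u 0 D
  rw [sub_zero] at h1
  rw [← h1]
  have h2 : (fun θ => ks e h u 0 (θ, D)) = fun _ => bar e D u := by
    funext θ
    unfold ks
    rw [sub_zero]
    exact h.bar_rot F hD hB hdiam (u, θ)
  unfold vl
  rw [h2]
  have h3 : mfderiv 𝓘(ℝ, ℝ) 𝓘(ℝ, E) (fun _ : ℝ => bar e D u) 0 = 0 := mfderiv_const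
  exact congrArg (fun L : ℝ →L[ℝ] E => L 1) h3

theorem Jw_zero (w : UT E M → UT E M) (u : UT E M) : Jw e w u 0 = 0 := by
  unfold Jw jf
  rw [sub_zero, zero_smul]

/-- the fields in the chart, along the geodesic of `v` -/
def jj (F : Facts e) (w : UT E M → UT E M) (x₀ : M) (v : UT E M) (z : ℝ × ℝ) : E :=
  crd x₀ (gm e (v, z.2)) (Jw e w (phi F (v, z.1)) (z.2 - z.1) : E)

theorem sm_jj (F : Facts e) (h : IsSec e D w) (x₀ : M) (v : UT E M) (s : ℝ) {t : ℝ}
    (ht : gm e (v, t) ∈ (extChartAt 𝓘(ℝ, E) x₀).source) : Sm (jj F w x₀ v) (s, t) := by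
  have h1 : Sm (fun z : ℝ × ℝ => z.1) (s, t) := Sm.of_contDiff contDiff_fst _
  have h2 : Sm (fun z : ℝ × ℝ => z.2 - z.1) (s, t) :=
    Sm.of_contDiff (contDiff_snd.sub contDiff_fst) _
  have h3 : (dUT E M).At (fun z : ℝ × ℝ => phi F (v, z.1)) (s, t) :=
    map_phi F (u := fun z : ℝ × ℝ => (v, z.1)) ⟨H583.at_const v _, h1⟩
  have h4 := H583.at_Jw F h h3 h2
  have h5 : ∀ᶠ z in 𝓝 ((s, t) : ℝ × ℝ), gm e (v, z.2) ∈ (extChartAt 𝓘(ℝ, E) x₀).source := by
    have k0 : Sm (fun z : ℝ × ℝ => z.2) (s, t) := Sm.of_contDiff contDiff_snd _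
    have k1 : (dM E M).At (fun z : ℝ × ℝ => gm e (v, z.2)) (s, t) :=
      map_gm F (u := fun z : ℝ × ℝ => (v, z.2)) ⟨H583.at_const v _, k0⟩
    have k2 : S2 (E := E) (fun z : ℝ × ℝ => gm e (v, z.2)) (s, t) := k1
    exact k2.src x₀ ht
  have h6 : ∀ z : ℝ × ℝ, gm e (phi F (v, z.1), z.2 - z.1) = gm e (v, z.2) := by
    intro z
    rw [gm_phi F]
    congr 2
    ring
  filter_upwards [h4, h5] with z h7 h8
  have h9 : H775.SmV (fun z : ℝ × ℝ => gm e (v, z.2))
      (fun z => (Jw e w (phi F (v, z.1)) (z.2 - z.1) : E)) z := by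
    refine ContMDiffAt.congr_of_eventuallyEq h7 ?_
    exact Eventually.of_forall fun z' => tb_congr (h6 z').symm rfl
  exact ((H775.smV_iff (f := fun z : ℝ × ℝ => gm e (v, z.2)) (s := z) x₀ h8).1 h9).2

/-- the fields in the chart are the variation fields of the rotated geodesics -/
theorem d1_ks (F : Facts e) (hD : 0 < D) (hB : InjGE e D) (hdiam : ∀ p q : M, dist p q ≤ D)
    (h : IsSec e D w) (x₀ : M) (v : UT E M) (s : ℝ) {t : ℝ}
    (ht : gm e (v, t) ∈ (extChartAt 𝓘(ℝ, E) x₀).source) :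
    d1 (fun z => extChartAt 𝓘(ℝ, E) x₀ (ks e h (phi F (v, s)) s z)) (0, t) =
      jj F w x₀ v (s, t) := by
  have h0 : ks e h (phi F (v, s)) s (0, t) = gm e (v, t) := by
    unfold ks
    have k : h.rot (phi F (v, s), 0) = phi F (v, s) := rv_zero (h.gr (phi F (v, s)))
    change gm e (h.rot (phi F (v, s), 0), t - s) = _
    rw [k, gm_phi F]
    congr 2
    ring
  have h1 := (s2_ks F hD hB hdiam h (phi F (v, s)) s (0, t)).d1 x₀ (by rw [h0]; exact ht)
  rw [h1]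
  exact crd_congr x₀ h0 (vl_ks F h (phi F (v, s)) s t)

/-- the geodesic of `v` in the chart -/
def kap (e : ∀ x : M, TangentSpace 𝓘(ℝ, E) x → M) (x₀ : M) (v : UT E M) (t : ℝ) : E :=
  extChartAt 𝓘(ℝ, E) x₀ (gm e (v, t))

theorem src_gm (F : Facts e) (x₀ : M) {v : UT E M} {t : ℝ}
    (ht : gm e (v, t) ∈ (extChartAt 𝓘(ℝ, E) x₀).source) :
    ∀ᶠ t' in 𝓝 t, gm e (v, t') ∈ (extChartAt 𝓘(ℝ, E) x₀).source := by
  have k0 : Sm (fun t : ℝ => t) t := Sm.of_contDiff contDiff_id _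
  have k1 : (dM E M).At (fun t : ℝ => gm e (v, t)) t :=
    map_gm F (u := fun t : ℝ => (v, t)) ⟨H583.at_const v _, k0⟩
  exact k1.self_of_nhds.continuousAt.eventually ((isOpen_extChartAt_source x₀).mem_nhds ht)

theorem ks_zero (F : Facts e) (h : IsSec e D w) (v : UT E M) (s t : ℝ) :
    ks e h (phi F (v, s)) s (0, t) = gm e (v, t) := by
  unfold ks
  have k : h.rot (phi F (v, s), 0) = phi F (v, s) := rv_zero (h.gr (phi F (v, s)))
  change gm e (h.rot (phi F (v, s), 0), t - s) = _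
  rw [k, gm_phi F]
  congr 2
  ring

/-- the fields solve the linearized geodesic equation -/
theorem lin_jj (F : Facts e) (hD : 0 < D) (hB : InjGE e D) (hdiam : ∀ p q : M, dist p q ≤ D)
    (h : IsSec e D w) (x₀ : M) (v : UT E M) (hx : foot v ∈ (extChartAt 𝓘(ℝ, E) x₀).source)
    (s : ℝ) (b : E) :
    fderiv ℝ (Qf (cm x₀)) (kap e x₀ v 0, deriv (kap e x₀ v) 0, deriv (deriv (kap e x₀ v)) 0, b)
      (jj F w x₀ v (s, 0), d2 (jj F w x₀ v) (s, 0), d2 (d2 (jj F w x₀ v)) (s, 0), 0) = 0 := by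
  set u := phi F (v, s) with hu
  set c : ℝ × ℝ → E := fun z => extChartAt 𝓘(ℝ, E) x₀ (ks e h u s z) with hc
  have hx0 : gm e (v, 0) ∈ (extChartAt 𝓘(ℝ, E) x₀).source := by rw [gm_zero F]; exact hx
  have hS : S2 (E := E) (ks e h u s) (0, 0) := s2_ks F hD hB hdiam h u s _
  have hsrc0 : ks e h u s (0, 0) ∈ (extChartAt 𝓘(ℝ, E) x₀).source := by
    rw [hu, ks_zero]; exact hx0
  have hcs : Sm c (0, 0) := hS.sm x₀ hsrc0
  have htar : c (0, 0) ∈ (extChartAt 𝓘(ℝ, E) x₀).target :=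
    (extChartAt 𝓘(ℝ, E) x₀).map_source hsrc0
  have hin : Tendsto (fun θ : ℝ => ((θ, 0) : ℝ × ℝ)) (𝓝 0) (𝓝 (0, 0)) :=
    (continuous_id.prodMk continuous_const).tendsto 0
  have hgeo : ∀ᶠ θ in 𝓝 (0 : ℝ),
      Qg (cm x₀) (c (θ, 0)) (d2 c (θ, 0)) (d2 (d2 c) (θ, 0)) b = 0 := by
    filter_upwards [hin.eventually hcs.eventually, hin.eventually (hS.src x₀ hsrc0)] with θ h1 h2
    set uθ := phi F (h.rot (u, θ), -s) with huθ
    have h3 : ∀ t, ks e h u s (θ, t) = gm e (uθ, t) := by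
      intro t
      rw [huθ, gm_phi F, neg_add_eq_sub]
      rfl
    have h4 : foot uθ ∈ (extChartAt 𝓘(ℝ, E) x₀).source := by
      have h5 := h3 0
      rw [gm_zero F] at h5
      rw [← h5]
      exact h2
    refine geo_eq F hD hB (nm_vec' uθ) x₀ h4 h1 (Eventually.of_forall fun t => ?_) b
    rw [hc]
    change extChartAt 𝓘(ℝ, E) x₀ (ks e h u s (θ, t)) = _
    rw [h3 t]
    rfl
  have hQs : Sm (fun y => Qg (cm x₀) (c y) (d2 c y) (d2 (d2 c) y) b) (0, 0) := by
    have hj : Sm (fun y => ((c y, d2 c y, d2 (d2 c) y, b) : E × E × E × E)) (0, 0) :=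
      hcs.prodMk ((sm_d2 hcs).prodMk ((sm_d2 (sm_d2 hcs)).prodMk (sm_const b _)))
    exact Sm.comp (f := Qf (cm x₀)) (g := fun y => ((c y, d2 c y, d2 (d2 c) y, b) : E × E × E × E))
      (sm_Qf (sm_cm x₀ htar)) hj
  have hd : d1 (fun y => Qg (cm x₀) (c y) (d2 c y) (d2 (d2 c) y) b) (0, 0) = 0 := by
    have h1 := hasDerivAt_d1 (a := 0) (b := 0) hQs.differentiableAt
    have h2 : (fun θ : ℝ => (0 : ℝ)) =ᶠ[𝓝 0]
        fun θ => Qg (cm x₀) (c (θ, 0)) (d2 c (θ, 0)) (d2 (d2 c) (θ, 0)) b := by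
      filter_upwards [hgeo] with θ hθ using hθ.symm
    exact (h1.congr_of_eventuallyEq h2).unique (hasDerivAt_const _ _)
  have hlin := d1_Qf (sm_cm x₀ htar) hcs b
  rw [hd] at hlin
  -- jets
  have hj1 := jet2 (c := c) (κ := kap e x₀ v) hcs (Eventually.of_forall fun t => by
    simp only [hc, hu, ks_zero]
    rfl)
  have hj2 := jet_line (c := c) (y := fun t => jj F w x₀ v (s, t)) (t := 0) hcs (by
    filter_upwards [src_gm F x₀ hx0] with t ht
    exact d1_ks F hD hB hdiam h x₀ v s ht)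
  have hj3 := jet2 (c := jj F w x₀ v) (κ := fun t => jj F w x₀ v (s, t)) (θ := s) (t := 0)
    (sm_jj F h x₀ v s hx0) (Eventually.of_forall fun t => rfl)
  rw [hj1.1, hj1.2.1, hj1.2.2, hj2.1, hj2.2.1, hj2.2.2, ← hj3.2.1, ← hj3.2.2] at hlin
  exact hlin.symm

/-- the derivative of the fields in time -/
theorem dt_jj (F : Facts e) (hD : 0 < D) (hB : InjGE e D) (hdiam : ∀ p q : M, dist p q ≤ D)
    (h : IsSec e D w) (x₀ : M) (v : UT E M) (hx : foot v ∈ (extChartAt 𝓘(ℝ, E) x₀).source)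
    (s : ℝ) :
    HasDerivAt (fun θ : ℝ => (crd x₀ (ks e h (phi F (v, s)) s (θ, 0))
      (vec' (phi F (h.rot (phi F (v, s), θ), 0 - s)) : E) : E)) (d2 (jj F w x₀ v) (s, 0)) 0 := by
  set u := phi F (v, s) with hu
  set c : ℝ × ℝ → E := fun z => extChartAt 𝓘(ℝ, E) x₀ (ks e h u s z) with hc
  have hx0 : gm e (v, 0) ∈ (extChartAt 𝓘(ℝ, E) x₀).source := by rw [gm_zero F]; exact hx
  have hS : S2 (E := E) (ks e h u s) (0, 0) := s2_ks F hD hB hdiam h u s _
  have hsrc0 : ks e h u s (0, 0) ∈ (extChartAt 𝓘(ℝ, E) x₀).source := by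
    rw [hu, ks_zero]; exact hx0
  have hcs : Sm c (0, 0) := hS.sm x₀ hsrc0
  have hin : Tendsto (fun θ : ℝ => ((θ, 0) : ℝ × ℝ)) (𝓝 0) (𝓝 (0, 0)) :=
    (continuous_id.prodMk continuous_const).tendsto 0
  have hj2 := jet_line (c := c) (y := fun t => jj F w x₀ v (s, t)) (t := 0) hcs (by
    filter_upwards [src_gm F x₀ hx0] with t ht
    exact d1_ks F hD hB hdiam h x₀ v s ht)
  have hj3 := jet2 (c := jj F w x₀ v) (κ := fun t => jj F w x₀ v (s, t)) (θ := s) (t := 0)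
    (sm_jj F h x₀ v s hx0) (Eventually.of_forall fun t => rfl)
  have h1 := hasDerivAt_d1 (a := 0) (b := 0) (sm_d2 hcs).differentiableAt
  rw [hj2.2.1, ← hj3.2.1] at h1
  refine h1.congr_of_eventuallyEq ?_
  filter_upwards [hin.eventually hS.eventually, hin.eventually (hS.src x₀ hsrc0)] with θ h2 h3
  have h4 := h2.d2 x₀ h3
  rw [hc, h4]
  exact crd_congr x₀ rfl (vl_ks2 F h u s (θ, 0)).symm

theorem hasDerivAt_crd_circle (x₀ x : M) (a b : E) :
    HasDerivAt (fun θ : ℝ => (crd x₀ x (Real.cos θ • a + Real.sin θ • b : E) : E))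
      (crd x₀ x b : E) 0 := by
  have h1 : (fun θ : ℝ => (crd x₀ x (Real.cos θ • a + Real.sin θ • b : E) : E)) =
      fun θ : ℝ => Real.cos θ • (crd x₀ x a : E) + Real.sin θ • (crd x₀ x b : E) := by
    funext θ
    have k1 : (crd x₀ x (Real.cos θ • a + Real.sin θ • b : E) : E) =
      (crd x₀ x (Real.cos θ • a : E) : E) + (crd x₀ x (Real.sin θ • b : E) : E) :=
      map_add (crd x₀ x) _ _
    have k2 : (crd x₀ x (Real.cos θ • a : E) : E) = Real.cos θ • (crd x₀ x a : E) :=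
      map_smul (crd x₀ x) _ _
    have k3 : (crd x₀ x (Real.sin θ • b : E) : E) = Real.sin θ • (crd x₀ x b : E) :=
      map_smul (crd x₀ x) _ _
    rw [k1, k2, k3]
  rw [h1]
  have h2 := ((Real.hasDerivAt_cos 0).smul_const (crd x₀ x a : E)).add
    ((Real.hasDerivAt_sin 0).smul_const (crd x₀ x b : E))
  rw [Real.sin_zero, Real.cos_zero, neg_zero, zero_smul, one_smul, zero_add] at h2
  exact h2

/-- the initial derivative -/
theorem dt_jj_zero (F : Facts e) (hD : 0 < D) (hB : InjGE e D) (hdiam : ∀ p q : M, dist p q ≤ D)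
    (h : IsSec e D w) (x₀ : M) (v : UT E M) (hx : foot v ∈ (extChartAt 𝓘(ℝ, E) x₀).source) :
    d2 (jj F w x₀ v) (0, 0) = (crd x₀ (foot v) (vec' (w v) : E) : E) := by
  have h1 := dt_jj F hD hB hdiam h x₀ v hx 0
  have h2 := hasDerivAt_crd_circle (E := E) x₀ (foot v) (vec' v) (vec' (w v))
  refine (h1.congr_of_eventuallyEq (Eventually.of_forall fun θ => ?_)).unique h2
  refine crd_congr x₀ ?_ ?_
  · unfold ks
    rw [phi_zero]
    change _ = gm e (h.rot (v, θ), 0 - 0)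
    rw [sub_zero, gm_zero F]
    rfl
  · rw [phi_zero, sub_zero, phi_zero]
    rfl

/-- the final derivative -/
theorem dt_jj_D (F : Facts e) (hD : 0 < D) (hB : InjGE e D) (hdiam : ∀ p q : M, dist p q ≤ D)
    (h : IsSec e D w) (x₀ : M) (v : UT E M) (hx : foot v ∈ (extChartAt 𝓘(ℝ, E) x₀).source) :
    d2 (jj F w x₀ v) (-D, 0) =
      (crd x₀ (foot v) (vec' (phi F (w (phi F (v, -D)), D)) : E) : E) := by
  set v' := phi F (v, -D) with hv'
  have hv : phi F (v', D) = v := by rw [hv', phi_add, neg_add_cancel, phi_zero]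
  have h1 := dt_jj F hD hB hdiam h x₀ v hx (-D)
  have h2 := hasDerivAt_crd_circle (E := E) x₀ (foot v) (vec' v) (vec' (phi F (w v', D)))
  have h3 : ∀ θ, phi F (h.rot (v', θ), D) = rv (Th F hD hB hdiam (h.gr v')) θ := fun θ =>
    phi_rv F hD hB hdiam (h.gr v') θ
  refine (h1.congr_of_eventuallyEq (Eventually.of_forall fun θ => ?_)).unique h2
  have e1 : ks e h v' (-D) (θ, 0) = foot v := by
    unfold ks
    change foot (phi F (h.rot (v', θ), 0 - -D)) = foot v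
    rw [sub_neg_eq_add, zero_add, h3]
    change foot (phi F (v', D)) = foot v
    rw [hv]
  have e2 : vec' (phi F (h.rot (v', θ), 0 - -D)) =
      Real.cos θ • vec' v + Real.sin θ • vec' (phi F (w v', D)) := by
    rw [sub_neg_eq_add, zero_add, h3]
    change Real.cos θ • vec' (phi F (v', D)) + Real.sin θ • vec' (phi F (w v', D)) = _
    rw [hv]
  exact (crd_congr x₀ e1 e2).symm

end

end Vale.Agent.P231.WC
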