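import Vale.Agent.P231.WC.Jac

/-!
# P231, stage 1, block C (push-off): the local second variation
-/

set_option maxSynthPendingDepth 3
set_option linter.unusedSectionVars false
set_option linter.unusedVariables false

open Bundle Manifold Set Filter Module
open scoped ContDiff Manifold Topology

namespace Vale.Agent.P231.WC

noncomputable section

open Vale.Agent.P234 Vale.Agent.P231 Vale.Agent.P231.Fm Vale.Agent.P231.W Vale.Agent.P231.WR
open Vale.Agent.P231.H775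

variable {E : Type*} [NormedAddCommGroup E] [NormedSpace ℝ E]
  {M : Type*} [MetricSpace M] [ChartedSpace E M]
  [RiemannianBundle (fun x : M => TangentSpace 𝓘(ℝ, E) x)]
  {e : ∀ x : M, TangentSpace 𝓘(ℝ, E) x → M}

variable [FiniteDimensional ℝ E] [IsManifold 𝓘(ℝ, E) ∞ M]
  [IsContMDiffRiemannianBundle 𝓘(ℝ, E) ∞ E (fun x : M => TangentSpace 𝓘(ℝ, E) x)]
  [CompactSpace M] [ConnectedSpace M] [IsRiemannianManifold 𝓘(ℝ, E) M]

variable {D : ℝ} {w : UT E M → UT E M}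

/-- the squared speed of the curves `g (z.1, ·)` -/
def sq2 (g : ℝ × ℝ → M) (z : ℝ × ℝ) : ℝ := nm (g z) (vl (fun t => g (z.1, t)) z.2 : E) ^ 2

/-- the product of the two velocities of `g` -/
def mx2 (g : ℝ × ℝ → M) (z : ℝ × ℝ) : ℝ :=
  ip (g z) (vl (fun t => g (z.1, t)) z.2 : E) (vl (fun s => g (s, z.2)) z.1 : E)

/-- the push-off of the geodesic of `v` by the field `X` -/
def po2 (e : ∀ x : M, TangentSpace 𝓘(ℝ, E) x → M) (v : UT E M) (X : ℝ → E) (z : ℝ × ℝ) : M :=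
  e (gm e (v, z.2)) (z.1 • X z.2 : E)

/-- the field in the chart -/
def yf (e : ∀ x : M, TangentSpace 𝓘(ℝ, E) x → M) (x₀ : M) (v : UT E M) (X : ℝ → E) (t : ℝ) : E :=
  crd x₀ (gm e (v, t)) (X t : E)

theorem s2_po2 (F : Facts e) (v : UT E M) {X : ℝ → E} {t : ℝ} (ε : ℝ)
    (hX : ∀ᶠ t in 𝓝 t, H775.SmV (fun t => gm e (v, t)) (fun t => (X t : E)) t) :
    S2 (E := E) (po2 e v X) (ε, t) := by
  have h1 : Tendsto (fun z : ℝ × ℝ => z.2) (𝓝 (ε, t)) (𝓝 t) := continuous_snd.tendsto _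
  filter_upwards [h1.eventually hX] with z hz
  have h2 : H775.SmV (fun z : ℝ × ℝ => gm e (v, z.2)) (fun z => (X z.2 : E)) z :=
    H775.SmV.comp (f := fun t => gm e (v, t)) (u := fun t => (X t : E)) (h := Prod.snd) hz
      contDiffAt_snd
  exact (h2.smul contDiffAt_fst).exp F.isExp

theorem po2_zero (F : Facts e) (v : UT E M) (X : ℝ → E) (t : ℝ) :
    po2 e v X (0, t) = gm e (v, t) := by
  unfold po2
  have h : ((0 : ℝ) • X t : E) = 0 := zero_smul ℝ _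
  change e (gm e (v, t)) ((0 : ℝ) • X t : E) = _
  rw [h]
  exact F.isExp.map_zero _

theorem vl_po2 (F : Facts e) (v : UT E M) (X : ℝ → E) (t : ℝ) :
    (vl (fun s => po2 e v X (s, t)) 0 : E) = X t := by
  let X' : TangentSpace 𝓘(ℝ, E) (gm e (v, t)) := X t
  have hc : HasDerivAt (fun s : ℝ => s • X') X' 0 := by
    simpa using (hasDerivAt_id (0 : ℝ)).smul_const X'
  have h1 := mfderiv_exp_curve F.isExp (gm e (v, t)) hc
  have h2 : (vl (fun s => po2 e v X (s, t)) 0 : E) =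
      dE e (gm e (v, t)) ((0 : ℝ) • X t) (X t) := h1
  rw [h2, zero_smul]
  exact dE_zero_base F.isExp _ _

theorem d1_po2 (F : Facts e) (x₀ : M) (v : UT E M) {X : ℝ → E} {t : ℝ}
    (ht : gm e (v, t) ∈ (extChartAt 𝓘(ℝ, E) x₀).source)
    (hX : ∀ᶠ t in 𝓝 t, H775.SmV (fun t => gm e (v, t)) (fun t => (X t : E)) t) :
    d1 (fun z => extChartAt 𝓘(ℝ, E) x₀ (po2 e v X z)) (0, t) = yf e x₀ v X t := by
  have h1 := (s2_po2 F v 0 hX).d1 x₀ (by rw [po2_zero F]; exact ht)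
  rw [h1]
  exact crd_congr x₀ (po2_zero F v X t) (vl_po2 F v X t)

/-- THE FIRST VARIATION at a point -/
theorem first_field (F : Facts e) (hD : 0 < D) (hB : InjGE e D) (v : UT E M) {X : ℝ → E}
    (hX : ∀ᶠ t in 𝓝 (0 : ℝ), H775.SmV (fun t => gm e (v, t)) (fun t => (X t : E)) t) :
    (1 / 2 : ℝ) * d1 (sq2 (E := E) (po2 e v X)) (0, 0) = d2 (mx2 (E := E) (po2 e v X)) (0, 0) := by
  set x₀ := foot v with hx₀
  set g := po2 e v X with hg
  have hx : foot v ∈ (extChartAt 𝓘(ℝ, E) x₀).source := mem_extChartAt_source _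
  have hx0 : gm e (v, 0) ∈ (extChartAt 𝓘(ℝ, E) x₀).source := by rw [gm_zero F]; exact hx
  have hS : S2 (E := E) g (0, 0) := s2_po2 F v 0 hX
  have hsrc : g (0, 0) ∈ (extChartAt 𝓘(ℝ, E) x₀).source := by rw [hg, po2_zero F]; exact hx0
  set C : ℝ × ℝ → E := fun z => extChartAt 𝓘(ℝ, E) x₀ (g z) with hC
  have hCs : Sm C (0, 0) := hS.sm x₀ hsrc
  have htar : C (0, 0) ∈ (extChartAt 𝓘(ℝ, E) x₀).target :=
    (extChartAt 𝓘(ℝ, E) x₀).map_source hsrc
  have hgeo : Qg (cm x₀) (C (0, 0)) (d2 C (0, 0)) (d2 (d2 C) (0, 0)) (d1 C (0, 0)) = 0 :=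
    geo_eq F hD hB (nm_vec' v) x₀ hx hCs (Eventually.of_forall fun t => by
      change extChartAt 𝓘(ℝ, E) x₀ (g (0, t)) = _
      rw [hg, po2_zero F]
      rfl) _
  have h1 := first_var (sm_cm x₀ htar) (cm_symm x₀ htar) hCs
  rw [hgeo, sub_zero] at h1
  have hae : Ae (cm x₀) C =ᶠ[𝓝 (0, 0)] sq2 (E := E) g := by
    filter_upwards [hS.eventually, hS.src x₀ hsrc] with z e1 e2 using e1.ae x₀ e2
  have ham : Am (cm x₀) C =ᶠ[𝓝 (0, 0)] mx2 (E := E) g := by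
    filter_upwards [hS.eventually, hS.src x₀ hsrc] with z e1 e2 using e1.am x₀ e2
  rw [d1_congr hae, d2_congr ham] at h1
  exact h1

/-- THE SECOND VARIATION at a point, for a field whose linearized geodesic operator is `δ` -/
theorem second_field (F : Facts e) (hD : 0 < D) (hB : InjGE e D) (x₀ : M) (v : UT E M)
    (hx : foot v ∈ (extChartAt 𝓘(ℝ, E) x₀).source) {X : ℝ → E}
    (hX : ∀ᶠ t in 𝓝 (0 : ℝ), H775.SmV (fun t => gm e (v, t)) (fun t => (X t : E)) t) {δ : E}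
    (hδ : ∀ b, fderiv ℝ (Qf (cm x₀))
      (kap e x₀ v 0, deriv (kap e x₀ v) 0, deriv (deriv (kap e x₀ v)) 0, b)
      (yf e x₀ v X 0, deriv (yf e x₀ v X) 0, deriv (deriv (yf e x₀ v X)) 0, 0) =
        cm x₀ (kap e x₀ v 0) (crd x₀ (foot v) δ : E) b) :
    (1 / 2 : ℝ) * d1 (d1 (sq2 (E := E) (po2 e v X))) (0, 0) =
      d2 (d1 (mx2 (E := E) (po2 e v X))) (0, 0) - ip (foot v) δ (X 0) := by
  set g := po2 e v X with hg
  have hx0 : gm e (v, 0) ∈ (extChartAt 𝓘(ℝ, E) x₀).source := by rw [gm_zero F]; exact hx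
  have hS : S2 (E := E) g (0, 0) := s2_po2 F v 0 hX
  have hsrc : g (0, 0) ∈ (extChartAt 𝓘(ℝ, E) x₀).source := by rw [hg, po2_zero F]; exact hx0
  set C : ℝ × ℝ → E := fun z => extChartAt 𝓘(ℝ, E) x₀ (g z) with hC
  have hCs : Sm C (0, 0) := hS.sm x₀ hsrc
  have htar : C (0, 0) ∈ (extChartAt 𝓘(ℝ, E) x₀).target :=
    (extChartAt 𝓘(ℝ, E) x₀).map_source hsrc
  have hCt : ∀ t, C (0, t) = kap e x₀ v t := fun t => by
    change extChartAt 𝓘(ℝ, E) x₀ (g (0, t)) = _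
    rw [hg, po2_zero F]
    rfl
  have hgeo : ∀ b, Qg (cm x₀) (C (0, 0)) (d2 C (0, 0)) (d2 (d2 C) (0, 0)) b = 0 :=
    geo_eq F hD hB (nm_vec' v) x₀ hx hCs (Eventually.of_forall hCt)
  have hj1 := jet2 (c := C) (κ := kap e x₀ v) hCs (Eventually.of_forall hCt)
  have hj2 := jet_line (c := C) (y := yf e x₀ v X) (t := 0) hCs (by
    filter_upwards [src_gm F x₀ hx0, eventually_eventually_nhds.2 hX] with t ht1 ht2
    exact d1_po2 F x₀ v ht1 ht2)
  have h1 := second_var (A := cm x₀) (c := C) (z := (0, 0)) (δ := (crd x₀ (foot v) δ : E))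
    (sm_cm x₀ htar) (cm_symm x₀ htar) hCs hgeo (fun b => by
      rw [hj1.1, hj1.2.1, hj1.2.2, hj2.1, hj2.2.1, hj2.2.2]
      exact hδ b)
  have hae : Ae (cm x₀) C =ᶠ[𝓝 (0, 0)] sq2 (E := E) g := by
    filter_upwards [hS.eventually, hS.src x₀ hsrc] with z e1 e2 using e1.ae x₀ e2
  have ham : Am (cm x₀) C =ᶠ[𝓝 (0, 0)] mx2 (E := E) g := by
    filter_upwards [hS.eventually, hS.src x₀ hsrc] with z e1 e2 using e1.am x₀ e2
  have h3 : cm x₀ (C (0, 0)) (crd x₀ (foot v) δ : E) (d1 C (0, 0)) = ip (foot v) δ (X 0) := by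
    rw [hj2.1, hCt]
    have k := cm_ip x₀ hx δ (X 0)
    rw [← k]
    have e1 : kap e x₀ v 0 = extChartAt 𝓘(ℝ, E) x₀ (foot v) := by
      unfold kap
      rw [gm_zero F]
    have e2 : yf e x₀ v X 0 = (crd x₀ (foot v) (X 0) : E) := crd_congr x₀ (gm_zero F v) rfl
    rw [e1, e2]
  rw [d1_congr (d1_congr' hae), d2_congr (d1_congr' ham), h3] at h1
  exact h1

end

end Vale.Agent.P231.WC
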