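import Vale.Agent.P231.WC.YLoc
import Vale.Agent.P231.H766.Sum
import Vale.Agent.P231.H766.Sgn
import Vale.Agent.P231.H766.PushOf

/-!
# P231, stage 1, block C (push-off): THE PUSH-OFF
-/

set_option maxSynthPendingDepth 3
set_option linter.unusedSectionVars false
set_option linter.unusedVariables false

open Bundle Manifold Set Filter Module
open scoped ContDiff Manifold Topology

namespace Vale.Agent.P231.WC

noncomputable section

open Vale.Agent.P234 Vale.Agent.P231 Vale.Agent.P231.Fm Vale.Agent.P231.W Vale.Agent.P231.WR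
open Vale.Agent.P231.H775

variable {E : Type*} [NormedAddCommGroup E] [NormedSpace ℝ E]
  {M : Type*} [MetricSpace M] [ChartedSpace E M]
  [RiemannianBundle (fun x : M => TangentSpace 𝓘(ℝ, E) x)]
  {e : ∀ x : M, TangentSpace 𝓘(ℝ, E) x → M}

variable [FiniteDimensional ℝ E] [IsManifold 𝓘(ℝ, E) ∞ M]
  [IsContMDiffRiemannianBundle 𝓘(ℝ, E) ∞ E (fun x : M => TangentSpace 𝓘(ℝ, E) x)]
  [CompactSpace M] [ConnectedSpace M] [IsRiemannianManifold 𝓘(ℝ, E) M]

variable {D : ℝ} {w : UT E M → UT E M}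

theorem map_ip_Yf (F : Facts e) (h : IsSec e D w) :
    (dUT E M).Map (Dif.lin ℝ) (fun v => ip (foot v) (Yf F D w v) (vec' (w v))) := by
  intro E' _ _ _ u x hu
  have h1 := H583.map_Yf F h hu
  have h2 : (dUT E M).At (w ∘ u) x := h.map hu
  rw [at_iff] at h2
  change ∀ᶠ s in 𝓝 x, H775.SmV (fun s => foot (u s)) (fun s => (Yf F D w (u s) : E)) s at h1
  change Sm (fun s => ip (foot (u s)) (Yf F D w (u s)) (vec' (w (u s)))) x
  filter_upwards [h1, h2] with s e1 e2
  have e3 : H775.SmV (fun s => foot (u s)) (fun s => (vec' (w (u s)) : E)) s := by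
    refine ContMDiffAt.congr_of_eventuallyEq e2 ?_
    exact Eventually.of_forall fun s' => tb_congr (h.isL (u s')).foot_eq.symm rfl
  exact e1.inner e3

/-- the energy of the push-off: first and second variation -/
theorem en_Yf (F : Facts e) (hD : 0 < D) (hB : InjGE e D) (hdiam : ∀ p q : M, dist p q ≤ D)
    {N : ℕ} (hN : finrank ℝ E = N + 1)
    (hK : ∀ (x : M) (v : TangentSpace 𝓘(ℝ, E) x), ‖v‖ = 1 → finrank ℝ (H703.Ker e D x v) = 1)
    (hP : ∀ x y : M, dist x y = D → finrank ℝ (H775.Pl e D x y) = 2) (h : IsSec e D w) :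
    (∀ v, deriv (fun ε => en F D (Yf F D w) ε v) 0 = 0) ∧
      ∀ v, deriv (deriv (fun ε => en F D (Yf F D w) ε v)) 0 < 0 :=
  H766.en_of_local F hD hB hdiam (H583.map_Yf F h)
    (fun v => H583.Y_pos F hD hB hdiam hN hK h v) (map_ip_Yf F h)
    (fun v => local_first F hD hB h v)
    (fun v => local_second F hD hB hdiam h (H766.w_phi_neg F hD hB hdiam hN hK hP h) v)

/-- **THE PUSH-OFF** (block C of stage 1) -/
theorem exists_push (F : Facts e) (hD : 0 < D) (hB : InjGE e D)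
    (hdiam : ∀ p q : M, dist p q ≤ D) {N : ℕ} (hN : finrank ℝ E = N + 1)
    (hK : ∀ (x : M) (v : TangentSpace 𝓘(ℝ, E) x), ‖v‖ = 1 → finrank ℝ (H703.Ker e D x v) = 1)
    (hP : ∀ x y : M, dist x y = D → finrank ℝ (H775.Pl e D x y) = 2) (h : IsSec e D w) :
    ∃ (Y : UT E M → E) (ε₀ : ℝ), WD.Push F D w Y ε₀ := by
  obtain ⟨h1, h2⟩ := en_Yf F hD hB hdiam hN hK hP h
  obtain ⟨ε₀, h3⟩ := H766.push_of F hD hB hdiam hN hK h h1 h2
  exact ⟨_, ε₀, h3⟩

end

end Vale.Agent.P231.WC
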