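import Vale.Agent.P231.WC.Main

/-!
# P231, stage 1, block C (push-off): the push-off, from the dimension of the kernels
-/

set_option maxSynthPendingDepth 3
set_option linter.unusedSectionVars false
set_option linter.unusedVariables false

open Bundle Manifold Set Filter Module
open scoped ContDiff Manifold Topology

namespace Vale.Agent.P231.WC

noncomputable section

open Vale.Agent.P234 Vale.Agent.P231 Vale.Agent.P231.Fm Vale.Agent.P231.W Vale.Agent.P231.WR
open Vale.Agent.P231.H775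

variable {E : Type*} [NormedAddCommGroup E] [NormedSpace ℝ E]
  {M : Type*} [MetricSpace M] [ChartedSpace E M]
  [RiemannianBundle (fun x : M => TangentSpace 𝓘(ℝ, E) x)]
  {e : ∀ x : M, TangentSpace 𝓘(ℝ, E) x → M}

variable [FiniteDimensional ℝ E] [IsManifold 𝓘(ℝ, E) ∞ M]
  [IsContMDiffRiemannianBundle 𝓘(ℝ, E) ∞ E (fun x : M => TangentSpace 𝓘(ℝ, E) x)]
  [CompactSpace M] [ConnectedSpace M] [IsRiemannianManifold 𝓘(ℝ, E) M]

variable {D : ℝ} {w : UT E M → UT E M}

theorem finrank_Pl_of_Ker (F : Facts e) (hD : 0 < D) (hB : InjGE e D)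
    (hdiam : ∀ p q : M, dist p q ≤ D) {l : ℕ}
    (hK : ∀ (x : M) (v : TangentSpace 𝓘(ℝ, E) x), ‖v‖ = 1 → finrank ℝ (H703.Ker e D x v) = l)
    (x y : M) (hxy : dist x y = D) : finrank ℝ (H775.Pl e D x y) = l + 1 := by
  obtain ⟨v, hv, hn⟩ := F.hopfRinow x y
  have h0 : D ≠ 0 := hD.ne'
  have h1 : ‖D⁻¹ • v‖ = 1 := by
    rw [norm_smul, norm_inv, Real.norm_eq_abs, abs_of_pos hD, ← hn, hxy, inv_mul_cancel₀ h0]
  have h2 : e x (D • (D⁻¹ • v)) = y := by
    rw [smul_smul, mul_inv_cancel₀ h0, one_smul, hv]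
  have h3 := H703.finrank_Ker_add_one F hD hB hdiam h1 h2
  rw [hK x _ h1] at h3
  exact h3.symm

/-- **THE PUSH-OFF** (block C of stage 1): the hypothesis `hC` of `L.blaschke_one` -/
theorem exists_push_of_K (F : Facts e) (hD : 0 < D) (hB : InjGE e D)
    (hdiam : ∀ p q : M, dist p q ≤ D) {N : ℕ} (hN : finrank ℝ E = N + 1)
    (hK : ∀ (x : M) (v : TangentSpace 𝓘(ℝ, E) x), ‖v‖ = 1 → finrank ℝ (H703.Ker e D x v) = 1)
    (w : UT E M → UT E M) (h : IsSec e D w) :
    ∃ (Y : UT E M → E) (ε₀ : ℝ), WD.Push F D w Y ε₀ :=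
  exists_push F hD hB hdiam hN hK (finrank_Pl_of_Ker F hD hB hdiam hK) h

end

end Vale.Agent.P231.WC
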